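import Vale.Agent.P073Y.An.Sk
import Vale.Agent.P073Z.Fin.Main0

/-!
# Transfer of the everywhere conical approximation to Euclidean space
-/

open Set Metric Topology Filter MeasureTheory
open scoped ENNReal NNReal

namespace P073.An

open Vale.Agent.P073Z.Fin Vale.Agent.P073Z.Fin.Tr Vale.Agent.P073Z.Sm

theorem tr0 {p : ℝ} (hp1 : 1 ≤ p) (hPLA : PLA0 p) : PL0 p := by
  intro Ω Λ f f' F ε hΩ hΛ hcΩ hcΛ hbΩ hbΛ hε hf hFm hFi hw
  have hp0 : 0 ≤ p := by linarith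
  obtain ⟨ε', hε'0, he1, he2⟩ : ∃ ε' : ℝ, 0 < ε' ∧ ‖(ψ.symm : P073.E3 →L[ℝ] E)‖ * ε' ≤ ε ∧
      ‖Ψi‖ ^ p * (2 * ε') ≤ ε := by
    have hc10 : 0 ≤ ‖(ψ.symm : P073.E3 →L[ℝ] E)‖ := norm_nonneg _
    have hc20 : 0 ≤ ‖Ψi‖ ^ p := by positivity
    generalize ‖(ψ.symm : P073.E3 →L[ℝ] E)‖ = c1 at hc10 ⊢
    generalize ‖Ψi‖ ^ p = c2 at hc20 ⊢
    have hden : 0 < c1 + 2 * c2 + 1 := by linarith
    have h0 : 0 < ε / (c1 + 2 * c2 + 1) := div_pos hε hden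
    have he : (c1 + 2 * c2 + 1) * (ε / (c1 + 2 * c2 + 1)) = ε := by field_simp
    exact ⟨_, h0, by nlinarith, by nlinarith⟩
  have hbd : ∀ {S : Set E}, Bornology.IsBounded S → Bornology.IsBounded (ψ.symm ⁻¹' S) :=
    fun hS => ψ.symm.antilipschitz.isBounded_preimage hS
  obtain ⟨k, k', hk, hcon, hcl, hen⟩ := hPLA (Ω := ψ.symm ⁻¹' Ω) (Λ := ψ.symm ⁻¹' Λ)
    (f := fun y => ψ (f (ψ.symm y))) (f' := fun y => ψ (f' (ψ.symm y)))
    (F := fun y => Ψ (F (ψ.symm y))) (ε := ε')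
    (hΩ.preimage ψ.symm.continuous) (hΛ.preimage ψ.symm.continuous)
    (ψ.symm.toHomeomorph.isConnected_preimage.2 hcΩ)
    (ψ.symm.toHomeomorph.isConnected_preimage.2 hcΛ) (hbd hbΩ) (hbd hbΛ) hε'0
    (homeoOn_conj ψ.symm.toHomeomorph hf) (meas_conj hFm) (fin_conj hp0 hFi) (weak_conj hw)
  refine ⟨fun x => ψ.symm (k (ψ x)), homeo_back hΛ hk,
    fun x hx => ?_, fun x hx => (close_back (hcl (ψ x) (by simpa using hx))).trans he1,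
    (energy_back (ε := 2 * ε') hp0 (hen.trans_lt ?_)).trans (ENNReal.ofReal_le_ofReal he2)⟩
  · have hx' : ψ x ∈ ψ.symm ⁻¹' Ω := by simpa using hx
    exact coneAt_of (hΩ.preimage ψ.symm.continuous) hx' (hcon _ hx')
  · exact (ENNReal.ofReal_lt_ofReal_iff (by linarith)).2 (by linarith)

theorem ballEvans_of_PLA0 {p : ℝ} (hp : 1 ≤ p) (h : PLA0 p) : BallEvans p :=
  ballEvans_of_PL0 hp (tr0 hp h)

end P073.An
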