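import Vale.Agent.P073Y.An.Sk

/-!
# Open Sobolev maps and the maximum principle
-/

open Set Metric Topology Filter MeasureTheory
open scoped ENNReal NNReal

namespace P073.An

open Vale.Agent.P073.HB

namespace MaxA

theorem openOn_of {Ω Λ : Set E3} {f f' : E3 → E3} (hΛ : IsOpen Λ) (h : HomeoOn f f' Ω Λ) :
    OpenOn f Ω := by
  intro V hV hVΩ
  have e : f '' V = Λ ∩ f' ⁻¹' V := by
    ext y
    constructor
    · rintro ⟨x, hx, rfl⟩
      refine ⟨h.mapsTo (hVΩ hx), ?_⟩
      rw [mem_preimage, h.left_inv (hVΩ hx)]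
      exact hx
    · intro hy
      exact ⟨f' y, hy.2, h.right_inv hy.1⟩
  rw [e]
  exact h.cont_inv.isOpen_inter_preimage hΛ hV

theorem loc_of {Ω : Set E3} {F : E3 → M3} {p : ℝ} (hΩ : IsOpen Ω) (hp : 1 ≤ p)
    (hm : AEStronglyMeasurable F (volume.restrict Ω)) (hi : ∫⁻ x in Ω, ‖F x‖ₑ ^ p < ⊤) :
    LocallyIntegrableOn F Ω volume := by
  have hp0 : 0 < p := by linarith
  have h1 : MemLp F (ENNReal.ofReal p) (volume.restrict Ω) := by
    refine ⟨hm, ?_⟩
    rw [eLpNorm_lt_top_iff_lintegral_rpow_enorm_lt_top (ENNReal.ofReal_pos.2 hp0).ne'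
      ENNReal.ofReal_ne_top, ENNReal.toReal_ofReal hp0.le]
    exact hi
  have h2 := h1.locallyIntegrable (ENNReal.one_le_ofReal.2 hp)
  intro x _
  obtain ⟨s, hs, h3⟩ := h2 x
  refine ⟨s ∩ Ω, inter_mem (mem_nhdsWithin_of_mem_nhds hs) self_mem_nhdsWithin, ?_⟩
  rwa [IntegrableOn, Measure.restrict_restrict' hΩ.measurableSet] at h3

theorem weak_mono {Ω U : Set E3} {f : E3 → E3} {F : E3 → M3} (hΩ : IsOpen Ω) (hU : U ⊆ Ω)
    (h : WeakDeriv volume Ω f F) : WeakDeriv volume U f F := by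
  intro φ h1 h2 h3 v
  have h4 := h φ h1 h2 (h3.trans hU) v
  rw [setIntegral_eq_of_subset_of_forall_sdiff_eq_zero hΩ.measurableSet hU,
    setIntegral_eq_of_subset_of_forall_sdiff_eq_zero hΩ.measurableSet hU] at h4
  · exact h4
  · intro x hx
    have h5 : fderiv ℝ φ x = 0 := by
      by_contra h6
      exact hx.2 (h3 (support_fderiv_subset ℝ h6))
    rw [h5, zero_apply, zero_smul]
  · intro x hx
    have h5 : φ x = 0 := image_eq_zero_of_notMem_tsupport fun h6 => hx.2 (h3 h6)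
    rw [h5, zero_smul]

theorem unbounded_half (l : E3 →L[ℝ] ℝ) {u : ℝ} {y : E3} (hy : l y < u) :
    ¬ Bornology.IsBounded {z | l z < u} := by
  intro hb
  obtain ⟨R, hR⟩ := hb.subset_closedBall y
  obtain ⟨v, hv, hl⟩ : ∃ v : E3, ‖v‖ = 1 ∧ l v ≤ 0 := by
    rcases le_total (l 1) 0 with h | h
    · exact ⟨1, norm_one, h⟩
    · exact ⟨-1, by rw [norm_neg, norm_one], by rw [map_neg]; linarith⟩
  have h0 : 0 ≤ |R| + 1 := by positivity
  have h1 : y + (|R| + 1) • v ∈ {z | l z < u} := by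
    change l (y + (|R| + 1) • v) < u
    rw [map_add, map_smul, smul_eq_mul]
    nlinarith
  have h2 := hR h1
  rw [mem_closedBall, dist_eq_norm, add_sub_cancel_left, norm_smul, hv, mul_one,
    Real.norm_of_nonneg h0] at h2
  linarith [le_abs_self R]

end MaxA

open MaxA

theorem mon : MON :=
  ⟨fun hΛ h => openOn_of hΛ h,
    fun hΩ hΛ hp h hm hi hw => ⟨hΩ, h.cont, openOn_of hΛ h, loc_of hΩ hp hm hi, hw⟩,
    fun h hU hUΩ => ⟨hU, h.cont.mono hUΩ, fun V hV hVU => h.opn V hV (hVU.trans hUΩ),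
      h.loc.mono_set hUΩ, weak_mono h.op hUΩ h.weak⟩⟩

theorem maxp : MAXP := by
  intro Ω Q f hc ho hQ hQΩ
  have hK : IsCompact (f '' Q) := hQ.image_of_continuousOn (hc.mono hQΩ)
  have key : ∀ U : Set E3, IsPreconnected U → ¬ Bornology.IsBounded U →
      Disjoint U (f '' frontier Q) → Disjoint U (f '' Q) := by
    intro U hU hb hd
    have h1 : U ⊆ f '' interior Q ∪ (f '' Q)ᶜ := by
      intro y hy
      by_cases h2 : y ∈ f '' Q
      · obtain ⟨x, hx, rfl⟩ := h2
        refine Or.inl ⟨x, ?_, rfl⟩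
        by_contra h3
        exact disjoint_left.1 hd hy ⟨x, ⟨subset_closure hx, h3⟩, rfl⟩
      · exact Or.inr h2
    rcases hU.subset_or_subset (ho _ isOpen_interior (interior_subset.trans hQΩ))
      hK.isClosed.isOpen_compl
      (disjoint_compl_right.mono_left (image_mono interior_subset)) h1 with h2 | h2
    · exact absurd (hK.isBounded.subset (h2.trans (image_mono interior_subset))) hb
    · exact subset_compl_iff_disjoint_right.1 h2
  refine ⟨key, fun C hC hCc hf y hy => ?_⟩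
  by_contra h1
  obtain ⟨l, u, h2, h3⟩ := geometric_hahn_banach_point_closed hC hCc h1
  refine disjoint_left.1 (key {z | l z < u}
    (convex_halfSpace_lt (l : E3 →ₗ[ℝ] ℝ).isLinear u).isPreconnected (unbounded_half l h2)
    (disjoint_left.2 fun z hz h4 => ?_)) h2 hy
  exact lt_asymm hz (h3 z (hf h4))

end P073.An
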