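import Vale.Agent.P073Y.An.Sk

/-!
# Telescoping along dyadic edges
-/

open Set Metric Topology Filter

namespace P073.An

namespace DyaA

/-- the numerators of the dyadic approximations -/
noncomputable def dig (s : ℝ) : ℕ → ℕ
  | 0 => 0
  | k + 1 => if 2 ^ (k + 1) * s ≤ 2 * (dig s k : ℝ) + 1 then 2 * dig s k else 2 * dig s k + 1

/-- dyadic approximations from below -/
theorem exists_digits {s : ℝ} (hs : s ∈ Icc (0:ℝ) 1) : ∃ n : ℕ → ℕ, n 0 = 0 ∧
    (∀ k, n (k + 1) = 2 * n k ∨ n (k + 1) = 2 * n k + 1) ∧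
    ∀ k, n k < 2 ^ k ∧ (n k : ℝ) ≤ 2 ^ k * s ∧ 2 ^ k * s ≤ n k + 1 := by
  have hn : ∀ k : ℕ, dig s (k + 1) =
      if 2 ^ (k + 1) * s ≤ 2 * (dig s k : ℝ) + 1 then 2 * dig s k else 2 * dig s k + 1 :=
    fun _ => rfl
  refine ⟨dig s, rfl, fun k => ?_, fun k => ?_⟩
  · rw [hn]
    split_ifs
    · exact Or.inl rfl
    · exact Or.inr rfl
  · induction k with
    | zero =>
      have h0 : dig s 0 = 0 := rfl
      rw [h0]
      refine ⟨by norm_num, ?_, ?_⟩
      · simpa using hs.1
      · simpa using hs.2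
    | succ k ih =>
      obtain ⟨h1, h2, h3⟩ := ih
      have e : (2:ℝ) ^ (k + 1) * s = 2 * (2 ^ k * s) := by ring
      rw [hn]
      split_ifs with h
      · refine ⟨by rw [pow_succ]; omega, ?_, ?_⟩
        · push_cast
          linarith
        · push_cast
          linarith
      · refine ⟨by rw [pow_succ]; omega, ?_, ?_⟩
        · push_cast
          linarith
        · push_cast
          linarith

theorem tendsto_digits {s : ℝ} {n : ℕ → ℕ}
    (h : ∀ k, (n k : ℝ) ≤ 2 ^ k * s ∧ 2 ^ k * s ≤ n k + 1) :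
    Tendsto (fun k => (n k : ℝ) / 2 ^ k) atTop (𝓝 s) := by
  have h1 : Tendsto (fun k : ℕ => s - (1 / 2 : ℝ) ^ k) atTop (𝓝 (s - 0)) :=
    tendsto_const_nhds.sub (tendsto_pow_atTop_nhds_zero_of_lt_one (by norm_num) (by norm_num))
  rw [sub_zero] at h1
  refine tendsto_of_tendsto_of_tendsto_of_le_of_le h1 tendsto_const_nhds (fun k => ?_) fun k => ?_
  · have h2 : (0:ℝ) < 2 ^ k := by positivity
    have h3 : (1 / 2 : ℝ) ^ k * 2 ^ k = 1 := by
      rw [← mul_pow]
      norm_num
    rw [le_div_iff₀ h2, sub_mul, h3]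
    linarith [(h k).2]
  · have h2 : (0:ℝ) < 2 ^ k := by positivity
    rw [div_le_iff₀ h2]
    linarith [(h k).1]

end DyaA

open DyaA

theorem dya : DYA := by
  intro X _ g c q hc hq hq1 hg h u hu
  have step : ∀ (k : ℕ) (m m' : Fin 2 → ℕ) (d : Fin 2), (∀ t, m t < 2 ^ k) →
      (∀ t, t ≠ d → m' t = m t) → (m' d = m d ∨ m' d = m d + 1) →
      dist (g fun t => (m t : ℝ) / 2 ^ k) (g fun t => (m' t : ℝ) / 2 ^ k) ≤ c * q ^ k := by
    intro k m m' d h1 h2 h3
    rcases h3 with h3 | h3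
    · have e : m' = m := funext fun t => by
        by_cases h4 : t = d
        · rw [h4, h3]
        · exact h2 t h4
      rw [e, dist_self]
      positivity
    · have e : (fun t => (m' t : ℝ) / 2 ^ k) =
          (fun t => (m t : ℝ) / 2 ^ k) + Pi.single d (1 / 2 ^ k) := funext fun t => by
        by_cases h4 : t = d
        · rw [h4, Pi.add_apply, Pi.single_eq_same, h3]
          push_cast
          ring
        · rw [Pi.add_apply, Pi.single_eq_of_ne h4, h2 t h4, add_zero]
      rw [e, dist_comm]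
      exact h k m d h1
  choose n hn0 hn1 hn2 using fun t : Fin 2 => exists_digits (s := u t) ⟨hu.1 t, hu.2 t⟩
  have h1 : ∀ k, dist (g fun t => (n t k : ℝ) / 2 ^ k)
      (g fun t => (n t (k + 1) : ℝ) / 2 ^ (k + 1)) ≤ 2 * c * q ^ k := by
    intro k
    have e : (fun t => (n t k : ℝ) / 2 ^ k) = fun t => ((2 * n t k : ℕ) : ℝ) / 2 ^ (k + 1) :=
      funext fun t => by
        push_cast
        field_simp
        ring
    have hlt : ∀ t, 2 * n t k < 2 ^ (k + 1) := fun t => by
      have := (hn2 t k).1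
      rw [pow_succ]
      omega
    have h2 := step (k + 1) (fun t => 2 * n t k) ![n 0 (k + 1), 2 * n 1 k] 0 hlt
      (fun t ht => by
        fin_cases t
        · exact absurd rfl ht
        · rfl) (hn1 0 k)
    have h3 := step (k + 1) ![n 0 (k + 1), 2 * n 1 k] (fun t => n t (k + 1)) 1
      (fun t => by
        fin_cases t
        · exact (hn2 0 (k + 1)).1
        · exact hlt 1)
      (fun t ht => by
        fin_cases t
        · rfl
        · exact absurd rfl ht) (hn1 1 k)
    have h4 : c * q ^ (k + 1) ≤ c * q ^ k :=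
      mul_le_mul_of_nonneg_left (pow_le_pow_of_le_one hq hq1.le (Nat.le_succ k)) hc
    rw [e]
    refine (dist_triangle _ _ _).trans ((add_le_add h2 h3).trans ?_)
    linarith
  have h2 : Tendsto (fun k => fun t => (n t k : ℝ) / 2 ^ k) atTop (𝓝[Icc 0 1] u) := by
    refine tendsto_nhdsWithin_iff.2 ⟨tendsto_pi_nhds.2 fun t =>
      tendsto_digits fun k => (hn2 t k).2, Eventually.of_forall fun k => ⟨fun t => ?_, fun t => ?_⟩⟩
    · change (0:ℝ) ≤ (n t k : ℝ) / 2 ^ k
      positivity
    · change (n t k : ℝ) / 2 ^ k ≤ 1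
      rw [div_le_one (by positivity)]
      exact_mod_cast (hn2 t k).1.le
  have h3 := dist_le_of_le_geometric_of_tendsto₀ q (2 * c) hq1
    (f := fun k => g fun t => (n t k : ℝ) / 2 ^ k) h1 ((hg u hu).tendsto.comp h2)
  have e : (fun t => (n t 0 : ℝ) / 2 ^ 0) = (0 : E2) := funext fun t => by
    rw [hn0 t]
    simp
  rw [dist_comm, ← e]
  exact h3

end P073.An
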