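import Vale.Agent.P073Y.An.Sk

/-!
# The Morrey estimate on the planes of a generic grid
-/

open Set Metric Topology Filter MeasureTheory
open scoped ENNReal NNReal

namespace P073.An

open Vale.Agent.P073.HB

/-- a point with prescribed `i`-th coordinate -/
def emb (i : Fin 3) (s : ℝ) (u : E2) : E3 := Fin.insertNth (α := fun _ => ℝ) i s u

theorem emb_self (i : Fin 3) (s : ℝ) (u : E2) : emb i s u i = s := by simp [emb]

theorem emb_ne (i : Fin 3) (s : ℝ) (u : E2) (t : Fin 2) : emb i s u (i.succAbove t) = u t := by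
  simp [emb]

theorem emb_ext {i : Fin 3} {x y : E3} (h0 : x i = y i)
    (h1 : ∀ t : Fin 2, x (i.succAbove t) = y (i.succAbove t)) : x = y := by
  funext k
  rcases Fin.eq_self_or_eq_succAbove i k with rfl | ⟨t, rfl⟩
  · exact h0
  · exact h1 t

theorem emb_forall {i : Fin 3} {P : Fin 3 → Prop} (h0 : P i) (h1 : ∀ t : Fin 2, P (i.succAbove t))
    (k : Fin 3) : P k := by
  rcases Fin.eq_self_or_eq_succAbove i k with rfl | ⟨t, rfl⟩
  · exact h0
  · exact h1 t

theorem continuous_emb (i : Fin 3) (s : ℝ) : Continuous (emb i s) := by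
  refine continuous_pi (emb_forall (i := i) ?_ fun t => ?_)
  · simp only [emb_self]; exact continuous_const
  · simp only [emb_ne]; exact continuous_apply t

/-- increments along a good segment -/
theorem seg_le {f : E3 → E3} {F : E3 → M3} {x v : E3} (h : GoodSeg f F x v) (A : M3) {p c : ℝ}
    (hp : 1 ≤ p) (hc : 0 ≤ c)
    (hJ : ∫⁻ s in Ioc (0 : ℝ) 1, ‖F (x + s • v) - A‖ₑ ^ p ≤ ENNReal.ofReal (c ^ p)) :
    ‖f (x + v) - f x - A v‖ ≤ ‖v‖ * c := by
  have hp0 : 0 < p := by linarith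
  have h1 := h.enorm_sub_le A (t := 0) (t' := 1) ⟨le_rfl, zero_le_one⟩ ⟨zero_le_one, le_rfl⟩
  simp only [one_smul, zero_smul, add_zero, sub_zero] at h1
  have hm : AEMeasurable (fun s : ℝ => ‖F (x + s • v) v - A v‖ₑ)
      (volume.restrict (Ioc (0 : ℝ) 1)) :=
    (h.integrableOn.aestronglyMeasurable.sub aestronglyMeasurable_const).enorm
  have h2 := lintegral_rpow_le hp hm
  have h3 : ∫⁻ s in Ioc (0 : ℝ) 1, ‖F (x + s • v) v - A v‖ₑ ^ p ≤
      ‖v‖ₑ ^ p * ∫⁻ s in Ioc (0 : ℝ) 1, ‖F (x + s • v) - A‖ₑ ^ p := by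
    rw [← lintegral_const_mul' _ _ (ENNReal.rpow_ne_top_of_nonneg hp0.le enorm_ne_top)]
    refine lintegral_mono fun s => ?_
    rw [← ENNReal.mul_rpow_of_nonneg _ _ hp0.le, mul_comm]
    exact ENNReal.rpow_le_rpow ((F (x + s • v) - A).le_opENorm v) hp0.le
  have h4 : ‖f (x + v) - f x - A v‖ₑ ^ p ≤ ENNReal.ofReal (‖v‖ * c) ^ p := by
    refine (ENNReal.rpow_le_rpow h1 hp0.le).trans (h2.trans (h3.trans ?_))
    rw [ENNReal.ofReal_mul (norm_nonneg _), ENNReal.mul_rpow_of_nonneg _ _ hp0.le, ofReal_norm,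
      ENNReal.ofReal_rpow_of_nonneg hc hp0.le]
    exact mul_le_mul_right hJ _
  have h5 := (ENNReal.rpow_le_rpow_iff hp0).1 h4
  rwa [← ofReal_norm, ENNReal.ofReal_le_ofReal_iff (by positivity)] at h5

/-- the dyadic edges in the planes -/
abbrev Idx (m : ℕ) := Σ k : ℕ, Fin 3 × Fin (m + 1) × Fin 2 × (Fin 2 → Fin (2 ^ k))

theorem tsum_idx (m : ℕ) (γ : ℝ≥0∞) :
    ∑' l : Idx m, γ ^ l.1 = 6 * (m + 1) * (1 - 4 * γ)⁻¹ := by
  rw [ENNReal.tsum_sigma', ← ENNReal.tsum_geometric, ← ENNReal.tsum_mul_left]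
  refine tsum_congr fun k => ?_
  rw [tsum_fintype]
  simp only [Finset.sum_const, Finset.card_univ, Fintype.card_prod, Fintype.card_fin,
    Fintype.card_pi, Finset.prod_const, nsmul_eq_mul]
  push_cast
  rw [mul_pow, ← pow_mul, mul_comm k 2, pow_mul]
  norm_num
  ring

theorem exists_ratio {p : ℝ} (hp : 2 < p) :
    ∃ a : ℝ, 0 < a ∧ a < 2 ∧ 4 < a ^ p := by
  have hp0 : 0 < p := by linarith
  have h1 : (4 : ℝ) < 2 ^ p := by
    have := Real.rpow_lt_rpow_of_exponent_lt (x := 2) one_lt_two hp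
    norm_num at this ⊢
    exact this
  have hc : ContinuousAt (fun a : ℝ => a ^ p) 2 := Real.continuousAt_rpow_const _ _ (Or.inr hp0.le)
  have h2 : ∀ᶠ a in 𝓝[<] (2 : ℝ), 4 < a ^ p :=
    mem_nhdsWithin_of_mem_nhds (hc.eventually (lt_mem_nhds h1))
  have h3 : ∀ᶠ a in 𝓝[<] (2 : ℝ), 0 < a :=
    mem_nhdsWithin_of_mem_nhds (lt_mem_nhds (by norm_num))
  have h4 : ∀ᶠ a in 𝓝[<] (2 : ℝ), a < 2 := self_mem_nhdsWithin
  obtain ⟨a, ha⟩ := (h3.and (h4.and h2)).exists
  exact ⟨a, ha.1, ha.2.1, ha.2.2⟩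

/-- the start of an edge -/
noncomputable def st (L : ℝ) (m : ℕ) (l : Idx m) : E3 :=
  emb l.2.1 ((l.2.2.1 : ℕ) * (L / m)) (L • fun t => ((l.2.2.2.2 t : ℕ) : ℝ) / 2 ^ l.1)

/-- the vector of an edge -/
noncomputable def vc (L : ℝ) (m : ℕ) (l : Idx m) : E3 :=
  emb l.2.1 0 (L • Pi.single l.2.2.2.1 (1 / 2 ^ l.1))

theorem norm_vc {L : ℝ} (hL : 0 < L) (m : ℕ) (l : Idx m) : ‖vc L m l‖ ≤ L / 2 ^ l.1 := by
  refine (pi_norm_le_iff_of_nonneg (by positivity)).2 (emb_forall (i := l.2.1) ?_ fun t => ?_)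
  · rw [vc, emb_self, norm_zero]; positivity
  · rw [vc, emb_ne, Pi.smul_apply, Pi.single_apply]
    split_ifs
    · rw [smul_eq_mul, Real.norm_of_nonneg (by positivity)]
      exact le_of_eq (by ring)
    · simp only [smul_zero, norm_zero]; positivity

theorem edge_mem {L : ℝ} (hL : 0 < L) {m : ℕ} (hm : 1 ≤ m) (l : Idx m) (o : E3) {s : ℝ}
    (hs : s ∈ Icc (0 : ℝ) 1) (i : Fin 3) :
    o i ≤ (o + st L m l + s • vc L m l) i ∧ (o + st L m l + s • vc L m l) i ≤ o i + L := by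
  have hm0 : (0 : ℝ) < m := by exact_mod_cast hm
  revert i
  refine emb_forall (i := l.2.1) ?_ fun t => ?_
  · simp only [Pi.add_apply, Pi.smul_apply, st, vc, emb_self, smul_zero, add_zero]
    have h1 : ((l.2.2.1 : ℕ) : ℝ) ≤ m := by exact_mod_cast Nat.lt_succ_iff.1 l.2.2.1.2
    have h2 : (m : ℝ) * (L / m) = L := by field_simp
    have h3 : 0 ≤ L / m := by positivity
    constructor
    · have : 0 ≤ ((l.2.2.1 : ℕ) : ℝ) * (L / m) := by positivity
      linarith
    · nlinarith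
  · simp only [Pi.add_apply, Pi.smul_apply, st, vc, emb_ne, smul_eq_mul]
    have h1 : ((l.2.2.2.2 t : ℕ) : ℝ) + 1 ≤ 2 ^ l.1 := by exact_mod_cast (l.2.2.2.2 t).2
    have h0 : (0 : ℝ) < 2 ^ l.1 := by positivity
    have h2 : (0 : ℝ) ≤ (Pi.single l.2.2.2.1 (1 / 2 ^ l.1) : E2) t ∧
        (Pi.single l.2.2.2.1 (1 / 2 ^ l.1) : E2) t ≤ 1 / 2 ^ l.1 := by
      rw [Pi.single_apply]
      split_ifs
      · exact ⟨by positivity, le_rfl⟩
      · exact ⟨le_rfl, by positivity⟩
    generalize (Pi.single l.2.2.2.1 (1 / 2 ^ l.1) : E2) t = e at h2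
    have h3 : ((l.2.2.2.2 t : ℕ) : ℝ) / 2 ^ l.1 + 1 / 2 ^ l.1 ≤ 1 := by
      rw [← add_div, div_le_one h0]; exact h1
    have h4 : 0 ≤ ((l.2.2.2.2 t : ℕ) : ℝ) / 2 ^ l.1 := by positivity
    have h5 : s * e ≤ e := by nlinarith [hs.2, h2.1]
    have h6 : 0 ≤ s * e := mul_nonneg hs.1 h2.1
    constructor <;> nlinarith

theorem mor2_of (hD : DYA) : MOR2 := by
  intro p hp
  have hp0 : 0 < p := by linarith
  obtain ⟨a, ha0, ha2, ha4⟩ := exists_ratio hp
  have hap : 0 < a ^ p := by linarith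
  have hρ : 0 < 1 - 4 / a ^ p := by rw [sub_pos, div_lt_one hap]; exact ha4
  set c₀ : ℝ := (12 / (1 - 4 / a ^ p)) ^ (1 / p) with hc₀
  have hc₀0 : 0 < c₀ := by positivity
  have hq : 0 < 1 - a / 2 := by linarith
  refine ⟨2 * (2 * c₀ / (1 - a / 2)), by positivity, ?_⟩
  intro Ω B T f F A L τ m P hΩ hf hF hw hB hB0 hBt hT hTΩ hL hτ hm hsub hE hP
  have hm0 : (0 : ℝ) < m := by exact_mod_cast hm
  obtain ⟨o, ho, hPo, hgood, hJ⟩ := exists_generic_translation (μ := volume) hΩ hf hF hw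
    (st L m) (vc L m) hB hB0 hBt ({()} : Finset Unit)
    (fun _ l => ENNReal.ofReal (a ^ p)⁻¹ ^ l.1)
    (fun _ _ => T.indicator fun y => ‖F y - A‖ₑ ^ p)
    (fun _ _ _ => aemeasurable_pow hF hT hTΩ A p) (fun _ _ => T)
    (fun _ _ l x hx s hs => hsub x hx _ (edge_mem hL hm l x hs)) hP
  refine ⟨o, ho, hPo, ?_⟩
  have hJ1 := hJ () (Finset.mem_singleton_self _)
  rw [Finset.card_singleton, Nat.cast_one, one_mul, ENNReal.tsum_mul_right, tsum_idx,
    lintegral_indicator hT, Measure.restrict_restrict hT, inter_self] at hJ1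
  have hJ2 := (ENNReal.mul_le_mul_iff_left hB0 hBt).1
    (hJ1.trans ((mul_le_mul_right hE _).trans_eq (mul_assoc _ _ _).symm))
  have hS : 6 * ((m : ℝ≥0∞) + 1) * (1 - 4 * ENNReal.ofReal (a ^ p)⁻¹)⁻¹ * ENNReal.ofReal τ ≤
      ENNReal.ofReal (12 / (1 - 4 / a ^ p) * (m * τ)) := by
    have e1 : (1 - 4 * ENNReal.ofReal (a ^ p)⁻¹) = ENNReal.ofReal (1 - 4 / a ^ p) := by
      rw [ENNReal.ofReal_sub _ (by positivity), ENNReal.ofReal_one, div_eq_mul_inv,
        ENNReal.ofReal_mul (by norm_num)]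
      simp
    have e2 : 6 * ((m : ℝ≥0∞) + 1) = ENNReal.ofReal (6 * (m + 1)) := by
      rw [ENNReal.ofReal_mul (by norm_num), ENNReal.ofReal_add (by positivity) zero_le_one]
      simp
    rw [e1, e2, ← ENNReal.ofReal_inv_of_pos hρ, ← ENNReal.ofReal_mul (by positivity),
      ← ENNReal.ofReal_mul (by positivity)]
    refine ENNReal.ofReal_le_ofReal ?_
    have h1 : (1 : ℝ) ≤ m := by exact_mod_cast hm
    have h2 : 0 ≤ (1 - 4 / a ^ p)⁻¹ * τ := by positivity
    rw [div_eq_mul_inv 12]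
    nlinarith
  set c : ℝ := L * (c₀ * (m * τ) ^ (1 / p)) with hc
  have hc0 : 0 ≤ c := by positivity
  have edge : ∀ l : Idx m, ‖f (o + st L m l + vc L m l) - f (o + st L m l) - A (vc L m l)‖ ≤
      c * (a / 2) ^ l.1 := by
    intro l
    have hin : ∀ s ∈ Icc (0 : ℝ) 1, o + st L m l + s • vc L m l ∈ T :=
      fun s hs => hsub o ho _ (edge_mem hL hm l o hs)
    have h1 := (ENNReal.le_tsum l).trans (hJ2.trans hS)
    have h2 : ∫⁻ s in Ioc (0 : ℝ) 1, ‖F (o + st L m l + s • vc L m l) - A‖ₑ ^ p ≤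
        ENNReal.ofReal ((a ^ l.1 * (c₀ * (m * τ) ^ (1 / p))) ^ p) := by
      have e1 : ∫⁻ s in Ioc (0 : ℝ) 1, ‖F (o + st L m l + s • vc L m l) - A‖ₑ ^ p =
          ∫⁻ s in Ioc (0 : ℝ) 1, (T.indicator fun y => ‖F y - A‖ₑ ^ p)
            (o + st L m l + s • vc L m l) :=
        setLIntegral_congr_fun measurableSet_Ioc fun s hs =>
          (indicator_of_mem (hin s ⟨hs.1.le, hs.2⟩) fun y => ‖F y - A‖ₑ ^ p).symm
      have e2 : (a ^ l.1 * (c₀ * (m * τ) ^ (1 / p))) ^ p =
          (a ^ p) ^ l.1 * (12 / (1 - 4 / a ^ p) * (m * τ)) := by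
        rw [Real.mul_rpow (by positivity) (by positivity),
          Real.mul_rpow (by positivity) (by positivity), hc₀, ← Real.rpow_mul (by positivity),
          ← Real.rpow_mul (by positivity), one_div, inv_mul_cancel₀ hp0.ne', Real.rpow_one,
          Real.rpow_one, ← Real.rpow_natCast, ← Real.rpow_natCast, ← Real.rpow_mul ha0.le,
          ← Real.rpow_mul ha0.le, mul_comm (l.1 : ℝ) p]
      have e3 : ENNReal.ofReal ((a ^ p) ^ l.1) * ENNReal.ofReal (a ^ p)⁻¹ ^ l.1 = 1 := by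
        rw [ENNReal.ofReal_pow hap.le, ← mul_pow, ← ENNReal.ofReal_mul hap.le,
          mul_inv_cancel₀ hap.ne']
        simp
      rw [e1, e2, ENNReal.ofReal_mul (by positivity)]
      refine le_trans (le_of_eq ?_) (mul_le_mul_right h1 _)
      rw [← mul_assoc, e3, one_mul]
    refine (seg_le (hgood l fun s hs => hTΩ (hin s hs)) A (by linarith) (by positivity) h2).trans ?_
    refine (mul_le_mul_of_nonneg_right (norm_vc hL m l) (by positivity)).trans (le_of_eq ?_)
    rw [hc, div_pow]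
    ring
  have plane : ∀ (i : Fin 3) (j : ℕ), j ≤ m → ∀ z : E3, (∀ k, o k ≤ z k ∧ z k ≤ o k + L) →
      z i = o i + j * (L / m) → dist (f z - A z)
        (f (o + emb i (j * (L / m)) 0) - A (o + emb i (j * (L / m)) 0)) ≤ 2 * c / (1 - a / 2) := by
    intro i j hj z hz hzi
    have hcont : Continuous fun u : E2 => o + emb i (j * (L / m)) (L • u) :=
      continuous_const.add ((continuous_emb _ _).comp (continuous_const_smul L))
    have hmap : MapsTo (fun u : E2 => o + emb i (j * (L / m)) (L • u)) (Icc 0 1) Ω := by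
      intro u hu
      refine hTΩ (hsub o ho _ (emb_forall (i := i) ?_ fun t => ?_))
      · simp only [Pi.add_apply, emb_self]
        rw [← hzi]; exact hz i
      · simp only [Pi.add_apply, emb_ne, Pi.smul_apply, smul_eq_mul]
        have h1 : 0 ≤ u t := hu.1 t
        have h2 : u t ≤ 1 := hu.2 t
        constructor <;> nlinarith
    have key := hD (X := E3) (c := c) (q := a / 2)
      (g := fun u : E2 => f (o + emb i (j * (L / m)) (L • u)) -
        A (o + emb i (j * (L / m)) (L • u))) hc0 (by positivity) (by linarith)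
      ((hf.comp hcont.continuousOn hmap).sub (A.continuous.comp hcont).continuousOn)
      (fun k n d hn => by
        have h1 := edge ⟨k, i, ⟨j, Nat.lt_succ_of_le hj⟩, d, fun t => ⟨n t, hn t⟩⟩
        have e1 : o + emb i (j * (L / m))
            (L • ((fun t => (n t : ℝ) / 2 ^ k) + Pi.single d (1 / 2 ^ k))) =
            o + st L m ⟨k, i, ⟨j, Nat.lt_succ_of_le hj⟩, d, fun t => ⟨n t, hn t⟩⟩ +
              vc L m ⟨k, i, ⟨j, Nat.lt_succ_of_le hj⟩, d, fun t => ⟨n t, hn t⟩⟩ := by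
          refine emb_ext (i := i) ?_ fun t => ?_
          · simp only [Pi.add_apply, st, vc, emb_self, add_zero]
          · simp only [Pi.add_apply, st, vc, emb_ne, Pi.smul_apply, smul_eq_mul]
            ring
        rw [e1, dist_eq_norm]
        refine le_trans (le_of_eq ?_) h1
        congr 1
        simp only [st, map_add]
        abel)
      (fun t => (z (i.succAbove t) - o (i.succAbove t)) / L)
      ⟨fun t => div_nonneg (by linarith [(hz (i.succAbove t)).1]) hL.le,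
        fun t => (div_le_one hL).2 (by linarith [(hz (i.succAbove t)).2])⟩
    have e2 : o + emb i (j * (L / m))
        (L • fun t => (z (i.succAbove t) - o (i.succAbove t)) / L) = z := by
      refine emb_ext (i := i) ?_ fun t => ?_
      · simp only [Pi.add_apply, emb_self, hzi]
      · simp only [Pi.add_apply, emb_ne, Pi.smul_apply, smul_eq_mul]
        field_simp
        ring
    simp only [e2, smul_zero] at key
    exact key
  rintro z ⟨hz, i, j, hzi⟩
  have hj : j ≤ m := by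
    have h1 := (hz i).2
    rw [hzi] at h1
    have h2 : (j : ℝ) * (L / m) ≤ m * (L / m) := by
      have : (m : ℝ) * (L / m) = L := by field_simp
      linarith
    exact_mod_cast le_of_mul_le_mul_right h2 (by positivity)
  have h1 := plane i j hj z hz hzi
  have h2 := plane (i.succAbove 0) 0 (Nat.zero_le _) (o + emb i (j * (L / m)) 0)
    (emb_forall (i := i) (by
      simp only [Pi.add_apply, emb_self]
      rw [← hzi]; exact hz i) fun t => by
      simp only [Pi.add_apply, emb_ne, Pi.zero_apply]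
      constructor <;> linarith) (by simp [emb_ne])
  have e3 : o + emb (i.succAbove 0) (((0 : ℕ) : ℝ) * (L / m)) 0 = o := by
    refine emb_ext (i := i.succAbove 0) ?_ fun t => ?_
    · simp [emb_self]
    · simp [emb_ne]
  rw [e3] at h2
  have h3 := (dist_triangle _ _ _).trans (add_le_add h1 h2)
  rw [dist_eq_norm] at h3
  have e4 : f z - f o - A (z - o) = f z - A z - (f o - A o) := by rw [map_sub]; abel
  rw [e4]
  refine h3.trans (le_of_eq ?_)
  rw [hc]
  field_simp
  ring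

end P073.An
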