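import Vale.Agent.P073Y.An.Sk

/-!
# The two forms of the oscillation estimate
-/

open Set Metric Topology Filter MeasureTheory
open scoped ENNReal NNReal

namespace P073.An

theorem osc_of (h : OSCM) : OSC := by
  intro p θ hp hθ hθ1
  obtain ⟨C, hC, h⟩ := h hp hθ hθ1
  have hp0 : 0 < p := by linarith
  refine ⟨⟨(C ^ p).toNNReal, ?_⟩, fun b l hl => ?_⟩
  · intro Ω f F x₀ r hM hr hΩ x hx y hy
    show _ ≤ ENNReal.ofReal (C ^ p) * _ * _
    set E := ∫⁻ z in closedBall x₀ ((1 + θ) * r), ‖F z‖ₑ ^ p with hE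
    by_cases ht : E = ⊤
    · rw [ht, ENNReal.mul_top]
      · exact le_top
      · exact mul_ne_zero (ENNReal.ofReal_pos.2 (by positivity)).ne'
          (ENNReal.ofReal_pos.2 (by positivity)).ne'
    · have h1 := h (m := 1) (τ := E.toReal / r ^ 3) 0 hM hr (by positivity) le_rfl hΩ
        (by
          rw [div_mul_cancel₀ _ (by positivity), ENNReal.ofReal_toReal ht]
          simp only [sub_zero]
          exact le_rfl) x hx y hy
      simp only [zero_apply, sub_zero, norm_zero, zero_div, add_zero,
        Nat.cast_one, one_mul] at h1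
      have h2 : dist (f y) (f x) ^ p ≤ C ^ p * r ^ (p - 3) * E.toReal := by
        rw [dist_eq_norm]
        refine (Real.rpow_le_rpow (norm_nonneg _) h1 hp0.le).trans_eq ?_
        rw [Real.mul_rpow (by positivity) (by positivity), Real.mul_rpow hC.le hr.le, one_div,
          Real.rpow_inv_rpow (by positivity) hp0.ne', Real.rpow_sub hr, Real.rpow_ofNat]
        ring
      rw [edist_dist, ENNReal.ofReal_rpow_of_nonneg dist_nonneg hp0.le,
        ← ENNReal.ofReal_toReal ht, ← ENNReal.ofReal_mul (by positivity),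
        ← ENNReal.ofReal_mul (by positivity)]
      exact ENNReal.ofReal_le_ofReal h2
  · obtain ⟨m, hm⟩ := exists_nat_ge (max 1 (2 * C * b / l))
    have hm1 : (1 : ℝ) ≤ m := (le_max_left _ _).trans hm
    have hm0 : (0 : ℝ) < m := by linarith
    have hm2 : 2 * C * b ≤ m * l := (div_le_iff₀ hl).1 ((le_max_right _ _).trans hm)
    refine ⟨(l / (2 * C)) ^ p / m, by positivity, ?_⟩
    intro Ω f F A x₀ r hM hr hA hΩ hE x hx y hy
    refine (h A hM hr (by positivity) (by exact_mod_cast hm1) hΩ hE x hx y hy).trans ?_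
    rw [mul_div_cancel₀ _ hm0.ne', one_div, Real.rpow_rpow_inv (by positivity) hp0.ne']
    have h3 : C * (‖A‖ / m) ≤ l / 2 := by
      rw [← mul_div_assoc, div_le_iff₀ hm0]
      nlinarith
    have h4 : C * (l / (2 * C)) = l / 2 := by field_simp
    nlinarith

end P073.An
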