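import Vale.Agent.P073Y.An.Sk

/-!
# The oscillation of an open Sobolev map minus a linear map
-/

open Set Metric Topology Filter MeasureTheory
open scoped ENNReal NNReal

namespace P073.An

/-- every point of the big cube lies in a cell of the grid -/
theorem exists_cell {o x : E3} {L : ℝ} {m : ℕ} (hL : 0 < L) (hm : 1 ≤ m)
    (hx : ∀ i, o i ≤ x i ∧ x i ≤ o i + L) : ∃ j : Fin 3 → ℕ, ∀ i, j i + 1 ≤ m ∧
      o i + j i * (L / m) ≤ x i ∧ x i ≤ o i + ((j i + 1 : ℕ) : ℝ) * (L / m) := by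
  have hm0 : (0 : ℝ) < m := by exact_mod_cast hm
  have hs : 0 < L / m := by positivity
  have hms : (m : ℝ) * (L / m) = L := by field_simp
  have key : ∀ i, ∃ j : ℕ, j + 1 ≤ m ∧ o i + j * (L / m) ≤ x i ∧
      x i ≤ o i + ((j + 1 : ℕ) : ℝ) * (L / m) := by
    intro i
    set t := (x i - o i) / (L / m) with ht
    have ht0 : 0 ≤ t := div_nonneg (by linarith [(hx i).1]) hs.le
    have e : x i = o i + t * (L / m) := by rw [ht, div_mul_cancel₀ _ hs.ne']; ring
    by_cases h : ⌊t⌋₊ + 1 ≤ m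
    · refine ⟨⌊t⌋₊, h, ?_, ?_⟩
      · rw [e]; nlinarith [Nat.floor_le ht0]
      · rw [e]; push_cast; nlinarith [Nat.lt_floor_add_one t]
    · obtain ⟨n, rfl⟩ : ∃ n, m = n + 1 := ⟨m - 1, by omega⟩
      have h1 : ((n + 1 : ℕ) : ℝ) ≤ t :=
        le_trans (by exact_mod_cast (by omega : n + 1 ≤ ⌊t⌋₊)) (Nat.floor_le ht0)
      refine ⟨n, le_rfl, ?_, by rw [hms]; exact (hx i).2⟩
      rw [e]
      push_cast at h1 hs ⊢
      nlinarith
  choose j hj using key
  exact ⟨j, hj⟩

theorem frontier_box {a b z : E3} (hz : z ∈ frontier (Icc a b)) :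
    z ∈ Icc a b ∧ ∃ i, z i = a i ∨ z i = b i := by
  have h1 : z ∈ Icc a b := isClosed_Icc.frontier_subset hz
  refine ⟨h1, ?_⟩
  by_contra hne
  push Not at hne
  refine hz.2 (interior_maximal (t := pi univ fun i => Ioo (a i) (b i)) (fun y hy => ?_)
    (isOpen_set_pi finite_univ fun i _ => isOpen_Ioo) fun i _ => ?_)
  · exact ⟨fun i => (hy i trivial).1.le, fun i => (hy i trivial).2.le⟩
  · exact ⟨lt_of_le_of_ne (h1.1 i) (hne i).1.symm, lt_of_le_of_ne (h1.2 i) (hne i).2⟩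

/-- from the planes to the whole cube -/
theorem solid (hM : MAXP) {Ω : Set E3} {f : E3 → E3} (hf : ContinuousOn f Ω) (ho : OpenOn f Ω)
    (A : M3) {o : E3} {L D : ℝ} {m : ℕ} (hL : 0 < L) (hm : 1 ≤ m)
    (hsub : ∀ z : E3, (∀ i, o i ≤ z i ∧ z i ≤ o i + L) → z ∈ Ω)
    (hD : ∀ z ∈ planes o L m, ‖f z - f o - A (z - o)‖ ≤ D) {x : E3}
    (hx : ∀ i, o i ≤ x i ∧ x i ≤ o i + L) : ‖f x - f o - A (x - o)‖ ≤ D + ‖A‖ * (L / m) := by
  have hm0 : (0 : ℝ) < m := by exact_mod_cast hm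
  have hs : 0 < L / m := by positivity
  have hms : (m : ℝ) * (L / m) = L := by field_simp
  obtain ⟨j, hj⟩ := exists_cell hL hm hx
  set a : E3 := fun i => o i + j i * (L / m) with ha
  set b : E3 := fun i => o i + ((j i + 1 : ℕ) : ℝ) * (L / m) with hb
  have hin : ∀ z ∈ Icc a b, ∀ i, o i ≤ z i ∧ z i ≤ o i + L := by
    intro z hz i
    have h1 : o i + j i * (L / m) ≤ z i := hz.1 i
    have h2 : z i ≤ o i + ((j i + 1 : ℕ) : ℝ) * (L / m) := hz.2 i
    have h3 : ((j i + 1 : ℕ) : ℝ) ≤ m := by exact_mod_cast (hj i).1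
    have h4 : 0 ≤ (j i : ℝ) * (L / m) := by positivity
    constructor <;> nlinarith
  have key := (hM hf ho (isCompact_Icc (a := a) (b := b)) fun z hz => hsub z (hin z hz)).2
    (closedBall (f o + A (x - o)) (D + ‖A‖ * (L / m))) (convex_closedBall _ _) isClosed_closedBall
    (by
      rintro _ ⟨z, hz, rfl⟩
      obtain ⟨hz1, i, hi⟩ := frontier_box hz
      have h1 := hD z ⟨hin z hz1, by
        rcases hi with hi | hi
        · exact ⟨i, j i, hi⟩
        · exact ⟨i, j i + 1, hi⟩⟩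
      have h2 : ‖z - x‖ ≤ L / m := by
        refine (pi_norm_le_iff_of_nonneg hs.le).2 fun k => ?_
        have a1 : o k + j k * (L / m) ≤ z k := hz1.1 k
        have a2 : z k ≤ o k + ((j k + 1 : ℕ) : ℝ) * (L / m) := hz1.2 k
        have a3 := (hj k).2
        push_cast at a2 a3
        rw [Pi.sub_apply, Real.norm_eq_abs, abs_le]
        constructor <;> nlinarith [a3.1, a3.2]
      have e : f z - (f o + A (x - o)) = (f z - f o - A (z - o)) + A (z - x) := by
        simp only [map_sub]; abel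
      rw [mem_closedBall, dist_eq_norm, e]
      exact (norm_add_le _ _).trans (add_le_add h1 ((A.le_opNorm _).trans
        (mul_le_mul_of_nonneg_left h2 (norm_nonneg _)))))
    (mem_image_of_mem f (⟨fun i => (hj i).2.1, fun i => (hj i).2.2⟩ : x ∈ Icc a b))
  rw [mem_closedBall, dist_eq_norm, ← sub_sub] at key
  exact key

theorem oscm_of (hM : MAXP) (h2 : MOR2) : OSCM := by
  intro p θ hp hθ hθ1
  obtain ⟨C, hC, H⟩ := h2 hp
  have hp0 : 0 < p := by linarith
  refine ⟨6 * C * (θ ^ 3)⁻¹ ^ (1 / p) + 6, by positivity, ?_⟩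
  intro Ω f F A x₀ r τ m hf hr hτ hm hsub hE x hx y hy
  have hm0 : (0 : ℝ) < m := by exact_mod_cast hm
  have hθr : 0 < θ * r := by positivity
  set o₀ : E3 := fun i => x₀ i - (1 + θ / 2) * r with ho₀
  have hV : volume (closedBall o₀ (θ * r / 2)) = ENNReal.ofReal ((θ * r) ^ 3) := by
    rw [Real.volume_pi_closedBall _ (by positivity)]
    congr 1
    simp only [Fintype.card_fin]
    ring
  have hco : ∀ {c z : E3} {s : ℝ}, z ∈ closedBall c s → ∀ i, c i - s ≤ z i ∧ z i ≤ c i + s := by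
    intro c z s hz i
    have := (dist_le_pi_dist z c i).trans hz
    rw [Real.dist_eq, abs_le] at this
    constructor <;> linarith [this.1, this.2]
  have hT : ∀ o ∈ closedBall o₀ (θ * r / 2), ∀ z : E3,
      (∀ i, o i ≤ z i ∧ z i ≤ o i + (2 + θ) * r) → z ∈ closedBall x₀ ((1 + θ) * r) := by
    intro o ho z hz
    refine (dist_pi_le_iff (by positivity)).2 fun i => ?_
    have a1 := hco ho i
    have a2 := hz i
    simp only [ho₀] at a1
    rw [Real.dist_eq, abs_le]
    constructor <;> nlinarith [a1.1, a1.2, a2.1, a2.2]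
  obtain ⟨o, ho, -, hD⟩ := H (B := closedBall o₀ (θ * r / 2)) (T := closedBall x₀ ((1 + θ) * r))
    A (L := (2 + θ) * r) (τ := (θ ^ 3)⁻¹ * τ) (m := m) (P := fun _ => True) hf.op hf.cont hf.loc
    hf.weak measurableSet_closedBall (by rw [hV]; simpa using by positivity)
    (by rw [hV]; exact ENNReal.ofReal_ne_top) measurableSet_closedBall hsub (by positivity)
    (by positivity) hm hT (by
      rw [hV, ← ENNReal.ofReal_mul (by positivity)]
      refine hE.trans (le_of_eq ?_)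
      congr 1
      field_simp) (ae_of_all _ fun _ _ => trivial)
  have hin : ∀ z ∈ closedBall x₀ r, ∀ i, o i ≤ z i ∧ z i ≤ o i + (2 + θ) * r := by
    intro z hz i
    have a1 := hco ho i
    have a2 := hco hz i
    simp only [ho₀] at a1
    constructor <;> nlinarith [a1.1, a1.2, a2.1, a2.2]
  have k := fun z hz => solid hM hf.cont hf.opn A (by positivity) hm
    (fun w hw => hsub (hT o ho w hw)) hD (hin z hz)
  have e : f y - f x - A (y - x) = (f y - f o - A (y - o)) - (f x - f o - A (x - o)) := by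
    simp only [map_sub]; abel
  rw [e]
  refine (norm_sub_le _ _).trans ((add_le_add (k y hy) (k x hx)).trans ?_)
  have e2 : ((m : ℝ) * ((θ ^ 3)⁻¹ * τ)) ^ (1 / p) = (θ ^ 3)⁻¹ ^ (1 / p) * (m * τ) ^ (1 / p) := by
    rw [← Real.mul_rpow (by positivity) (by positivity)]
    congr 1
    ring
  rw [e2]
  have b1 : 0 ≤ ((m : ℝ) * τ) ^ (1 / p) := by positivity
  have b2 : 0 ≤ (θ ^ 3)⁻¹ ^ (1 / p) := by positivity
  have b3 : 0 ≤ ‖A‖ / m := by positivity
  have e3 : ‖A‖ * ((2 + θ) * r / m) = (2 + θ) * r * (‖A‖ / m) := by ring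
  rw [e3]
  generalize ((m : ℝ) * τ) ^ (1 / p) = u at b1 ⊢
  generalize (θ ^ 3)⁻¹ ^ (1 / p) = w at b2 ⊢
  generalize ‖A‖ / m = s at b3 ⊢
  have c1 : 0 ≤ C * w * r * u := by positivity
  have c2 : 0 ≤ r * s := by positivity
  have c3 : 0 ≤ C * w * r * s := by positivity
  have c4 : 0 ≤ r * u := by positivity
  nlinarith

end P073.An
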