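import Vale.Agent.P073Y.An.RRA

/-!
# The norm trick
-/

open Set Metric Topology Filter MeasureTheory
open scoped ENNReal NNReal

namespace P073.An

open Vale.Agent.P073.HB

theorem rr_min {ι : Type} (s : Finset ι) (η : ι → ℝ) (hη : ∀ i ∈ s, 0 < η i) {a : ℝ}
    (ha : 0 < a) : ∃ t : ℝ, 0 < t ∧ t ≤ a ∧ ∀ i ∈ s, t ≤ η i := by
  classical
  induction s using Finset.induction_on with
  | empty => exact ⟨a, ha, le_rfl, by simp⟩
  | insert j s _ ih =>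
    obtain ⟨t, ht, hta, hts⟩ := ih fun i hi => hη i (Finset.mem_insert_of_mem hi)
    refine ⟨min t (η j), lt_min ht (hη j (Finset.mem_insert_self _ _)),
      (min_le_left _ _).trans hta, fun i hi => ?_⟩
    rcases Finset.mem_insert.1 hi with rfl | hi
    · exact min_le_right _ _
    · exact (min_le_left _ _).trans (hts i hi)

theorem rr_of (hU : UCW) (hR : RRA) (hW : WEAK) (hL : WLIP) (hA : AEAFF) : RR := by
  intro p W hp hS hP Ω Λ f f' F ε hΩ hΛ hΩc hΛc hΩb hΛb hε hf hF hFp hw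
  have hp0 : 0 < p := by linarith
  obtain ⟨-, ⟨C, hC, h2⟩, -, -⟩ := hU hp hS
  have : IsFiniteMeasure (volume.restrict Ω) := ⟨by
    rw [Measure.restrict_apply_univ]
    exact hΩb.measure_lt_top⟩
  obtain ⟨𝒮, δ, hδ, h𝒮, hG⟩ := hR (volume.restrict Ω) hp hS hF hFp hε
  have hX : ∫⁻ x in Ω, ENNReal.ofReal (W (F x)) ≤ ENNReal.ofReal C * ∫⁻ x in Ω, ‖F x‖ₑ ^ p := by
    rw [← lintegral_const_mul' _ _ ENNReal.ofReal_ne_top]
    refine lintegral_mono fun x => ?_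
    rw [rra_enorm hp0, ← ENNReal.ofReal_mul hC.le]
    exact ENNReal.ofReal_le_ofReal (h2 _).2
  have hXt : ∫⁻ x in Ω, ENNReal.ofReal (W (F x)) ≠ ⊤ :=
    ne_top_of_le_ne_top (ENNReal.mul_ne_top ENNReal.ofReal_ne_top hFp.ne) hX
  set M : ℝ≥0∞ := (∫⁻ x in Ω, ‖F x‖ₑ ^ p) +
    ENNReal.ofReal C * ((∫⁻ x in Ω, ENNReal.ofReal (W (F x))) + ENNReal.ofReal δ) with hM
  have hMt : M ≠ ⊤ := ENNReal.add_ne_top.2 ⟨hFp.ne, ENNReal.mul_ne_top ENNReal.ofReal_ne_top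
    (ENNReal.add_ne_top.2 ⟨hXt, ENNReal.ofReal_ne_top⟩)⟩
  choose! η hη hηS using fun S (hS : S ∈ 𝒮) => hW hΩ hΩb (h𝒮 S hS) hp hδ hMt
  obtain ⟨t, ht, hta, htS⟩ := rr_min 𝒮 η hη (lt_min hε hδ)
  obtain ⟨h, h', hh, hc, hd, hE⟩ := hP hΩ hΛ hΩc hΛc hΩb hΛb ht hf hF hFp hw
  have hE' : ∫⁻ x in Ω, ENNReal.ofReal (W (fderiv ℝ h x)) ≤
      (∫⁻ x in Ω, ENNReal.ofReal (W (F x))) + ENNReal.ofReal δ :=
    hE.trans (add_le_add le_rfl (ENNReal.ofReal_le_ofReal (hta.trans (min_le_right _ _))))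
  have hm : AEStronglyMeasurable (fderiv ℝ h) (volume.restrict Ω) :=
    (measurable_fderiv ℝ h).aestronglyMeasurable
  refine ⟨h, h', hh, hc, fun x hx => (hd x hx).trans (hta.trans (min_le_left _ _)),
    hG _ hm hE' fun S hS => ?_⟩
  refine hηS S hS hf.cont hh.cont hF hm le_self_add ?_ hw (hL hΩ (hA hΩ ⟨hh.cont, hc⟩).1).2
    fun x hx => (hd x hx).trans (htS S hS)
  refine le_trans ?_ le_add_self
  refine le_trans ?_ (mul_le_mul_right hE' _)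
  rw [← lintegral_const_mul' _ _ ENNReal.ofReal_ne_top]
  refine lintegral_mono fun x => ?_
  rw [rra_enorm hp0, ← ENNReal.ofReal_mul hC.le]
  exact ENNReal.ofReal_le_ofReal (h2 _).1

end P073.An
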