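import Vale.Agent.P073Y.An.Sk

/-!
# The abstract theorem of Radon and Riesz
-/

open Set Metric Topology Filter MeasureTheory
open scoped ENNReal NNReal

namespace P073.An

section pointwise

variable {V : Type} [NormedAddCommGroup V] [NormedSpace ℝ V] {p : ℝ} {W : V → ℝ}

/-- an affine minorant which almost touches at a point -/
theorem rra_minor (hW : SCW p W) (a : V) {η : ℝ} (hη : 0 < η) :
    ∃ (l : V →L[ℝ] ℝ) (c : ℝ), (∀ y, l y + c ≤ W y) ∧ l a + c = W a - η := by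
  obtain ⟨l, c, h1, h2⟩ := hW.cvx.convexOn.exists_affine_le_of_lt (𝕜 := ℝ) (x := a)
    (a := W a - η) (mem_univ a) (by linarith) isClosed_univ
    hW.cont.continuousOn.lowerSemicontinuousOn
  exact ⟨l, c, fun y => by simpa using h1 ⟨y, mem_univ y⟩, by simpa using h2⟩

/-- the pointwise lower bound at the midpoint -/
theorem rra_mid (hW : SCW p W) (h0 : ∀ A, 0 ≤ W A) {θ C η : ℝ} (hθ : 0 < θ) (hθ1 : θ ≤ 1)
    (hC : 0 < C) (h3 : ∀ A B, W B ≤ (1 + θ) * W A + C * ‖B - A‖ ^ p) (hη : 0 < η) (a : V) :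
    ∃ l : V →L[ℝ] ℝ, ∀ A B, 2 * W A - 2 * W ((1 / 2 : ℝ) • (A + B)) ≤
      8 * θ * W A + 8 * C * ‖A - a‖ ^ p + 4 * η - l (B - A) := by
  obtain ⟨l, c, h1, h2⟩ := rra_minor hW a hη
  refine ⟨l, fun A B => ?_⟩
  have e1 := h1 ((1 / 2 : ℝ) • (A + B))
  have e2 := h1 (a + a - A)
  have e3 := h3 a (a + a - A)
  have e4 := h3 a A
  have e5 := h3 A a
  have n1 : ‖a + a - A - a‖ = ‖A - a‖ := by
    rw [← norm_neg]; congr 1; abel
  rw [n1] at e3
  rw [norm_sub_rev] at e5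
  simp only [map_smul, map_add, map_sub, smul_eq_mul] at e1 e2 ⊢
  have hN : 0 ≤ C * ‖A - a‖ ^ p := by positivity
  set N := C * ‖A - a‖ ^ p with hNd
  have hA := h0 A
  have ha := h0 a
  have e6 : θ * W a ≤ θ * ((1 + θ) * W A + N) := mul_le_mul_of_nonneg_left e5 hθ.le
  have e7 : θ * N ≤ N := by nlinarith
  have e8 : θ * (θ * W A) ≤ θ * W A := by
    apply mul_le_mul_of_nonneg_left _ hθ.le
    nlinarith
  have e9 : 8 * C * ‖A - a‖ ^ p = 8 * N := by rw [hNd]; ring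
  rw [e9]
  nlinarith

end pointwise

section integrals

variable {α : Type} [MeasurableSpace α] {μ : Measure α}
  {V : Type} [NormedAddCommGroup V] {p : ℝ}

theorem rra_memLp (hp : 0 < p) {H : α → V} (hH : AEStronglyMeasurable H μ)
    (h : ∫⁻ x, ‖H x‖ₑ ^ p ∂μ < ⊤) : MemLp H (ENNReal.ofReal p) μ := by
  refine ⟨hH, ?_⟩
  rw [eLpNorm_lt_top_iff_lintegral_rpow_enorm_lt_top (by simpa using hp) ENNReal.ofReal_ne_top,
    ENNReal.toReal_ofReal hp.le]
  exact h

theorem rra_enorm (hp : 0 < p) (v : V) : ‖v‖ₑ ^ p = ENNReal.ofReal (‖v‖ ^ p) := by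
  rw [← ofReal_norm, ENNReal.ofReal_rpow_of_nonneg (norm_nonneg v) hp.le]

theorem rra_int (hp : 0 < p) {H : α → V} (hH : MemLp H (ENNReal.ofReal p) μ) :
    Integrable (fun x => ‖H x‖ ^ p) μ := by
  have := hH.integrable_norm_rpow (by simpa using hp) ENNReal.ofReal_ne_top
  rwa [ENNReal.toReal_ofReal hp.le] at this

theorem rra_lint (hp : 0 < p) {H : α → V} (hH : MemLp H (ENNReal.ofReal p) μ) :
    ∫⁻ x, ‖H x‖ₑ ^ p ∂μ = ENNReal.ofReal (∫ x, ‖H x‖ ^ p ∂μ) := by
  rw [ofReal_integral_eq_lintegral_ofReal (rra_int hp hH)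
    (Eventually.of_forall fun x => by positivity)]
  simp only [rra_enorm hp]

/-- approximation by a simple function -/
theorem rra_simple (hp : 0 < p) {H : α → V} (hH : MemLp H (ENNReal.ofReal p) μ) {ε : ℝ}
    (hε : 0 < ε) : ∃ φ : SimpleFunc α V, MemLp φ (ENNReal.ofReal p) μ ∧
      ∫ x, ‖H x - φ x‖ ^ p ∂μ ≤ ε := by
  obtain ⟨φ, h1, h2⟩ := hH.exists_simpleFunc_eLpNorm_sub_lt ENNReal.ofReal_ne_top
    (ε := ENNReal.ofReal ε ^ (1 / p)) (by
      have : ENNReal.ofReal ε ≠ 0 := by simpa using hε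
      exact (ENNReal.rpow_pos (pos_iff_ne_zero.2 this) ENNReal.ofReal_ne_top).ne')
  refine ⟨φ, h2, ?_⟩
  rw [eLpNorm_eq_lintegral_rpow_enorm_toReal (by simpa using hp) ENNReal.ofReal_ne_top,
    ENNReal.toReal_ofReal hp.le, ENNReal.rpow_lt_rpow_iff (by positivity),
    rra_lint hp (hH.sub h2)] at h1
  exact (ENNReal.ofReal_lt_ofReal_iff hε).1 h1 |>.le

/-- the linear term -/
theorem rra_lin [NormedSpace ℝ V] [CompleteSpace V] (φ : SimpleFunc α V)
    (L : V → V →L[ℝ] ℝ) {H : α → V} (hH : Integrable H μ) {δ : ℝ}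
    (hδ : ∀ a ∈ φ.range, ‖∫ x in φ ⁻¹' {a}, H x ∂μ‖ ≤ δ) :
    Integrable (fun x => L (φ x) (H x)) μ ∧
      |∫ x, L (φ x) (H x) ∂μ| ≤ (∑ a ∈ φ.range, ‖L a‖) * δ := by
  classical
  have e : (fun x => L (φ x) (H x)) =
      fun x => ∑ a ∈ φ.range, (φ ⁻¹' {a}).indicator (fun x => L a (H x)) x := by
    funext x
    rw [Finset.sum_eq_single (φ x)]
    · simp
    · intro b _ hb
      exact indicator_of_notMem (by simpa using hb.symm) _
    · intro h
      exact absurd (φ.mem_range_self x) h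
  have hi : ∀ a ∈ φ.range, Integrable ((φ ⁻¹' {a}).indicator fun x => L a (H x)) μ :=
    fun a _ => ((L a).integrable_comp hH).indicator (φ.measurableSet_fiber a)
  rw [e]
  refine ⟨integrable_finsetSum _ hi, ?_⟩
  rw [integral_finsetSum _ hi, Finset.sum_mul]
  refine (Finset.abs_sum_le_sum_abs _ _).trans (Finset.sum_le_sum fun a ha => ?_)
  rw [integral_indicator (φ.measurableSet_fiber a), (L a).integral_comp_comm hH.integrableOn]
  exact ((L a).le_opNorm _).trans (mul_le_mul_of_nonneg_left (hδ a ha) (norm_nonneg _))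

theorem rra_five [IsFiniteMeasure μ] {f g h k : α → ℝ} (hf : Integrable f μ) (hg : Integrable g μ)
    (hh : Integrable h μ) (hk : Integrable k μ) (a b c d e : ℝ) :
    ∫ x, (a * f x + b * g x + c * h x + d - e * k x) ∂μ =
      a * ∫ x, f x ∂μ + b * ∫ x, g x ∂μ + c * ∫ x, h x ∂μ + μ.real univ * d -
        e * ∫ x, k x ∂μ := by
  have i1 : Integrable (fun x => a * f x + b * g x) μ := (hf.const_mul _).add (hg.const_mul _)
  have i2 : Integrable (fun x => a * f x + b * g x + c * h x) μ := i1.add (hh.const_mul _)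
  have i3 : Integrable (fun x => a * f x + b * g x + c * h x + d) μ := i2.add (integrable_const _)
  rw [integral_sub i3 (hk.const_mul _), integral_add i2 (integrable_const _),
    integral_add i1 (hh.const_mul _), integral_add (hf.const_mul _) (hg.const_mul _),
    integral_const_mul, integral_const_mul, integral_const_mul, integral_const_mul,
    integral_const, smul_eq_mul]

end integrals

theorem rra_small {a ε : ℝ} (ha : 0 ≤ a) (hε : 0 < ε) : ∃ t : ℝ, 0 < t ∧ t ≤ 1 ∧ t * a ≤ ε := by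
  refine ⟨min 1 (ε / (a + 1)), by positivity, min_le_left _ _, ?_⟩
  calc min 1 (ε / (a + 1)) * a ≤ ε / (a + 1) * (a + 1) :=
        mul_le_mul (min_le_right _ _) (by linarith) ha (by positivity)
    _ = ε := by field_simp

theorem rra_of (hU : UCW) : RRA := by
  intro α _ μ _ V _ _ _ p W F ε hp hW hF hFp hε
  classical
  have hp0 : 0 < p := by linarith
  obtain ⟨h0, ⟨C₀, hC₀, h2⟩, h3, h4⟩ := hU hp hW
  have hFL := rra_memLp hp0 hF hFp
  have hWF : Integrable (fun x => W (F x)) μ := by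
    refine ((rra_int hp0 hFL).const_mul C₀).mono' (hW.cont.comp_aestronglyMeasurable hF)
      (Eventually.of_forall fun x => ?_)
    rw [Real.norm_of_nonneg (h0 _)]
    exact (h2 _).2
  set X := ∫ x, W (F x) ∂μ with hX
  have hX0 : 0 ≤ X := integral_nonneg fun x => h0 _
  obtain ⟨θ₁, hθ₁, -, hθ₁e⟩ := rra_small (a := 2 * X + 1) (ε := ε / 6) (by positivity)
    (by positivity)
  obtain ⟨C₁, hC₁, h4⟩ := h4 θ₁ hθ₁
  obtain ⟨θ, hθ, hθ1, hθe⟩ := rra_small (a := C₁ * (8 * X)) (ε := ε / 6) (by positivity)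
    (by positivity)
  obtain ⟨C, hC, h3⟩ := h3 θ hθ
  obtain ⟨τ, hτ, -, hτe⟩ := rra_small (a := C₁ * (8 * C)) (ε := ε / 6) (by positivity)
    (by positivity)
  obtain ⟨η, hη, -, hηe⟩ := rra_small (a := C₁ * (4 * μ.real univ)) (ε := ε / 6) (by positivity)
    (by positivity)
  obtain ⟨φ, hφL, hφ⟩ := rra_simple hp0 hFL hτ
  choose L hL using rra_mid hW h0 hθ hθ1 hC h3 hη
  set K := ∑ a ∈ φ.range, ‖L a‖ with hK
  have hK0 : 0 ≤ K := Finset.sum_nonneg fun a _ => norm_nonneg _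
  obtain ⟨δ, hδ, hδ1, hδe⟩ := rra_small (a := C₁ * (1 + K)) (ε := ε / 6) (by positivity)
    (by positivity)
  refine ⟨φ.range.image fun a => φ ⁻¹' {a}, δ, hδ, fun S hS => ?_, fun G hG hGW hGS => ?_⟩
  · obtain ⟨a, -, rfl⟩ := Finset.mem_image.1 hS
    exact φ.measurableSet_fiber a
  have hWGm : AEStronglyMeasurable (fun x => W (G x)) μ := hW.cont.comp_aestronglyMeasurable hG
  rw [← ofReal_integral_eq_lintegral_ofReal hWF (Eventually.of_forall fun x => h0 _),
    ← ENNReal.ofReal_add hX0 hδ.le] at hGW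
  have hWG : Integrable (fun x => W (G x)) μ :=
    (lintegral_ofReal_ne_top_iff_integrable hWGm (Eventually.of_forall fun x => h0 _)).1
      (ne_top_of_le_ne_top ENNReal.ofReal_ne_top hGW)
  rw [← ofReal_integral_eq_lintegral_ofReal hWG (Eventually.of_forall fun x => h0 _),
    ENNReal.ofReal_le_ofReal_iff (by positivity)] at hGW
  set Y := ∫ x, W (G x) ∂μ with hY
  have hGL : MemLp G (ENNReal.ofReal p) μ := by
    refine rra_memLp hp0 hG ?_
    have := (hWG.const_mul C₀).lintegral_lt_top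
    refine lt_of_le_of_lt (lintegral_mono fun x => ?_) this
    rw [rra_enorm hp0]
    exact ENNReal.ofReal_le_ofReal (h2 _).1
  have hD : MemLp (fun x => G x - F x) (ENNReal.ofReal p) μ := hGL.sub hFL
  have hDi : Integrable (fun x => G x - F x) μ := hD.integrable (by simpa using hp.le)
  obtain ⟨hLi, hLe⟩ := rra_lin φ L hDi (δ := δ) fun a ha =>
    hGS _ (Finset.mem_image_of_mem _ ha)
  have hE : Integrable (fun x => ‖F x - φ x‖ ^ p) μ := rra_int hp0 (hFL.sub hφL)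
  rw [rra_lint hp0 hD]
  refine ENNReal.ofReal_le_ofReal ?_
  have key : ∫ x, ‖G x - F x‖ ^ p ∂μ ≤ ∫ x, ((θ₁ - C₁ + 8 * C₁ * θ) * W (F x) +
      (θ₁ + C₁) * W (G x) + 8 * C₁ * C * ‖F x - φ x‖ ^ p + 4 * C₁ * η -
      C₁ * L (φ x) (G x - F x)) ∂μ := by
    refine integral_mono (rra_int hp0 hD) (((((hWF.const_mul _).add (hWG.const_mul _)).add
      (hE.const_mul _)).add (integrable_const _)).sub (hLi.const_mul _)) fun x => ?_
    have e1 := h4 (F x) (G x)
    have e2 := mul_le_mul_of_nonneg_left (hL (φ x) (F x) (G x)) hC₁.le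
    dsimp only
    nlinarith
  rw [rra_five hWF hWG hE hLi, ← hX, ← hY] at key
  have f1 : (θ₁ + C₁) * Y ≤ (θ₁ + C₁) * (X + δ) := mul_le_mul_of_nonneg_left hGW (by positivity)
  have f2 : 8 * C₁ * C * ∫ x, ‖F x - φ x‖ ^ p ∂μ ≤ 8 * C₁ * C * τ :=
    mul_le_mul_of_nonneg_left hφ (by positivity)
  have f3 : C₁ * (-∫ x, L (φ x) (G x - F x) ∂μ) ≤ C₁ * (K * δ) :=
    mul_le_mul_of_nonneg_left ((neg_le_abs _).trans hLe) hC₁.le
  have f4 : θ₁ * δ ≤ θ₁ * 1 := mul_le_mul_of_nonneg_left hδ1 hθ₁.le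
  nlinarith

end P073.An
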