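import Vale.Agent.P073Y.An.Sk

/-!
# The volume of images is bounded by the cubic energy
-/

open Set Metric Topology Filter MeasureTheory
open scoped ENNReal NNReal

namespace P073.An

namespace Vol3

theorem vol_le {A : Set E3} {c : E3} {a : ℝ≥0∞} (h : ∀ y ∈ A, edist y c ^ (3 : ℝ) ≤ a) :
    volume A ≤ 8 * a := by
  by_cases ht : a = ⊤
  · rw [ht, ENNReal.mul_top (by norm_num)]
    exact le_top
  have h0 : 0 ≤ a.toReal := ENNReal.toReal_nonneg
  have h1 : A ⊆ closedBall c (a.toReal ^ (3 : ℝ)⁻¹) := fun y hy => by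
    have h2 := h y hy
    rw [edist_dist, ENNReal.ofReal_rpow_of_nonneg dist_nonneg (by norm_num),
      ENNReal.ofReal_le_iff_le_toReal ht] at h2
    exact (Real.le_rpow_inv_iff_of_pos dist_nonneg h0 (by norm_num)).2 h2
  refine (measure_mono h1).trans_eq ?_
  have h3 : (a.toReal ^ (3 : ℝ)⁻¹) ^ 3 = a.toReal := by
    rw [← Real.rpow_ofNat, Real.rpow_inv_rpow h0 (by norm_num)]
  rw [Real.volume_pi_closedBall _ (by positivity), Fintype.card_fin, mul_pow, h3,
    ENNReal.ofReal_mul (by norm_num), ENNReal.ofReal_toReal ht]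
  norm_num

/-- the points of the grid of mesh `s` in the parity class `ε` -/
def ctr (s : ℝ) (ε : Fin 3 → Bool) (w : Fin 3 → ℤ) : E3 :=
  fun i => s * (2 * w i + if ε i then 1 else 0)

theorem cover {s : ℝ} (hs : 0 < s) (x : E3) : ∃ ε w, x ∈ closedBall (ctr s ε w) (s / 2) := by
  refine ⟨fun i => decide (round (x i / s) % 2 = 1), fun i => round (x i / s) / 2, ?_⟩
  rw [mem_closedBall, dist_pi_le_iff (by positivity)]
  intro i
  have h1 : (2 * ((round (x i / s) / 2 : ℤ) : ℝ) +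
      if decide (round (x i / s) % 2 = 1) = true then 1 else 0) = round (x i / s) := by
    split_ifs with h
    · rw [decide_eq_true_eq] at h
      exact_mod_cast (by omega : 2 * (round (x i / s) / 2) + 1 = round (x i / s))
    · rw [decide_eq_true_eq] at h
      exact_mod_cast (by omega : 2 * (round (x i / s) / 2) + 0 = round (x i / s))
  have h2 : x i - s * round (x i / s) = s * (x i / s - round (x i / s)) := by field_simp
  rw [Real.dist_eq, ctr, h1, h2, abs_mul, abs_of_pos hs]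
  have := abs_sub_round (x i / s)
  nlinarith

theorem disj {s : ℝ} (hs : 0 < s) (ε : Fin 3 → Bool) {w w' : Fin 3 → ℤ} (h : w ≠ w') :
    Disjoint (closedBall (ctr s ε w) ((1 + 1 / 2) * (s / 2)))
      (closedBall (ctr s ε w') ((1 + 1 / 2) * (s / 2))) := by
  refine closedBall_disjoint_closedBall ?_
  obtain ⟨i, hi⟩ := Function.ne_iff.1 h
  refine lt_of_lt_of_le ?_ (dist_le_pi_dist _ _ i)
  have h1 : (1 : ℝ) ≤ |(w i : ℝ) - w' i| := by
    exact_mod_cast Int.one_le_abs (sub_ne_zero.2 hi)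
  have h2 : ctr s ε w i - ctr s ε w' i = 2 * s * ((w i : ℝ) - w' i) := by
    unfold ctr
    ring
  rw [Real.dist_eq, h2, abs_mul, abs_of_pos (by positivity : 0 < 2 * s)]
  nlinarith

theorem grid {f : E3 → E3} {U : Set E3} {C : ℝ≥0∞} (ν : Measure E3)
    (h : ∀ c r, 0 < r → closedBall c ((1 + 1 / 2) * r) ⊆ U →
      volume (f '' closedBall c r) ≤ C * ν (closedBall c ((1 + 1 / 2) * r))) {ρ : ℝ}
    (hρ : 0 < ρ) : volume (f '' {x | closedBall x ρ ⊆ U}) ≤ 8 * C * ν U := by
  set s := ρ / 2 with hs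
  have hs0 : 0 < s := by positivity
  set T : (Fin 3 → Bool) → Set (Fin 3 → ℤ) :=
    fun ε => {w | closedBall (ctr s ε w) ((1 + 1 / 2) * (s / 2)) ⊆ U} with hT
  have h1 : f '' {x | closedBall x ρ ⊆ U} ⊆
      ⋃ ε, ⋃ w ∈ T ε, f '' closedBall (ctr s ε w) (s / 2) := by
    rintro _ ⟨x, hx, rfl⟩
    obtain ⟨ε, w, hw⟩ := cover hs0 x
    refine mem_iUnion.2 ⟨ε, mem_biUnion (x := w) ?_ (mem_image_of_mem _ hw)⟩
    refine Subset.trans (closedBall_subset_closedBall' ?_) hx
    rw [mem_closedBall, dist_comm] at hw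
    linarith
  have h2 : ∀ ε, volume (⋃ w ∈ T ε, f '' closedBall (ctr s ε w) (s / 2)) ≤ C * ν U := by
    intro ε
    refine (measure_biUnion_le _ (to_countable _) _).trans ?_
    refine (ENNReal.tsum_le_tsum fun w => h _ _ (by positivity) w.2).trans ?_
    rw [ENNReal.tsum_mul_left, ← measure_biUnion (to_countable _)
      (fun w _ w' _ hw => disj hs0 ε hw) fun w _ => measurableSet_closedBall]
    refine mul_le_mul_right (measure_mono ?_) _
    exact iUnion₂_subset fun w hw => hw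
  refine (measure_mono h1).trans ((measure_iUnion_fintype_le volume _).trans ?_)
  refine (Finset.sum_le_sum fun ε _ => h2 ε).trans_eq ?_
  rw [Finset.sum_const, Finset.card_univ, Fintype.card_fun, Fintype.card_bool, Fintype.card_fin,
    nsmul_eq_mul, mul_assoc]
  norm_num

theorem opn {f : E3 → E3} {U : Set E3} (hU : IsOpen U) {a : ℝ≥0∞}
    (h : ∀ ρ, 0 < ρ → volume (f '' {x | closedBall x ρ ⊆ U}) ≤ a) : volume (f '' U) ≤ a := by
  have h1 : f '' U ⊆ ⋃ n : ℕ, f '' {x | closedBall x (1 / ((n : ℝ) + 1)) ⊆ U} := by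
    rintro _ ⟨x, hx, rfl⟩
    obtain ⟨δ, hδ, h2⟩ := Metric.isOpen_iff.1 hU x hx
    obtain ⟨n, hn⟩ := exists_nat_one_div_lt hδ
    exact mem_iUnion.2 ⟨n, mem_image_of_mem _ ((closedBall_subset_ball hn).trans h2)⟩
  refine (measure_mono h1).trans ?_
  rw [Monotone.measure_iUnion]
  · exact iSup_le fun n => h _ (by positivity)
  · exact fun n m hnm => image_mono fun x hx =>
      (closedBall_subset_closedBall (Nat.one_div_le_one_div hnm)).trans hx

end Vol3

open Vol3 in
theorem vol3_of (h : OSC) (hm : MON) : VOL3 := by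
  have _ := hm
  obtain ⟨⟨C, hC⟩, -⟩ := @h 3 (1 / 2) (by norm_num) (by norm_num) (by norm_num)
  refine ⟨8 * (8 * C), ?_⟩
  intro Ω f F hM
  have h1 : ∀ U, IsOpen U → U ⊆ Ω →
      volume (f '' U) ≤ (8 * (8 * C) : ℝ≥0) * ∫⁻ x in U, ‖F x‖ₑ ^ (3 : ℝ) := by
    intro U hU hUΩ
    rw [← withDensity_apply _ hU.measurableSet]
    push_cast
    refine opn hU fun ρ hρ => grid _ (fun c r hr hc => ?_) hρ
    rw [withDensity_apply _ measurableSet_closedBall, mul_assoc]
    refine vol_le (c := f c) ?_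
    rintro _ ⟨y, hy, rfl⟩
    have h2 := hC hM hr (hc.trans hUΩ) c (mem_closedBall_self hr.le) y hy
    rwa [sub_self, Real.rpow_zero, ENNReal.ofReal_one, mul_one] at h2
  refine ⟨h1, fun hfin S hS hSΩ => ?_⟩
  generalize (8 * (8 * C) : ℝ≥0) = D at h1 ⊢
  set ν := (volume.restrict Ω).withDensity fun x => ‖F x‖ₑ ^ (3 : ℝ) with hν
  have : IsFiniteMeasure ν := isFiniteMeasure_withDensity hfin.ne
  have h3 : ∀ V, MeasurableSet V → ν V = ∫⁻ x in V ∩ Ω, ‖F x‖ₑ ^ (3 : ℝ) := fun V hV => by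
    rw [hν, withDensity_apply _ hV, Measure.restrict_restrict hV]
  refine ENNReal.le_of_forall_pos_le_add fun ε hε _ => ?_
  obtain ⟨V, hSV, hV, h4⟩ := S.exists_isOpen_le_add ν
    (ε := ((ε / (D + 1) : ℝ≥0) : ℝ≥0∞)) (ENNReal.coe_pos.2 (by positivity)).ne'
  rw [h3 V hV.measurableSet, h3 S hS, inter_eq_left.2 hSΩ] at h4
  refine (measure_mono (image_mono (subset_inter hSV hSΩ))).trans
    ((h1 _ (hV.inter hM.op) inter_subset_right).trans ((mul_le_mul_right h4 _).trans ?_))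
  rw [mul_add, ← ENNReal.coe_mul]
  refine add_le_add_right (ENNReal.coe_le_coe.2 ?_) _
  rw [← mul_div_assoc, div_le_iff₀ (by positivity), mul_comm]
  exact mul_le_mul_right le_self_add _

end P073.An
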