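import Vale.Agent.P073Y.An.Sk

/-!
# The volume of the image under a map which is close to a linear map
-/

open Set Metric Topology Filter MeasureTheory
open scoped ENNReal NNReal Pointwise

namespace P073.An

theorem vola : VOLA := by
  intro A K ε hK hε
  have hA : IsCompact (A '' K) := hK.image A.continuous
  have h1 : ∀ᶠ l in 𝓝 (0:ℝ), volume (cthickening l (A '' K)) < volume (A '' K) + ε :=
    (tendsto_measure_cthickening_of_isCompact hA).eventually
      (gt_mem_nhds (ENNReal.lt_add_right hA.measure_lt_top.ne hε.ne'))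
  obtain ⟨l, hl, hl0⟩ := ((h1.filter_mono nhdsWithin_le_nhds).and
    (self_mem_nhdsWithin (s := Ioi (0:ℝ)))).exists
  have hl0' : 0 < l := hl0
  refine ⟨l, hl0', fun {f} x₀ c r hr h => ?_⟩
  have h2 : f '' ((fun ξ => x₀ + r • ξ) '' K) ⊆
      (fun y => -c + y) ⁻¹' (r • cthickening l (A '' K)) := by
    rintro _ ⟨_, ⟨ξ, hξ, rfl⟩, rfl⟩
    refine ⟨r⁻¹ • (-c + f (x₀ + r • ξ)), ?_, smul_inv_smul₀ hr.ne' _⟩
    refine mem_cthickening_of_dist_le _ (A ξ) _ _ ⟨ξ, hξ, rfl⟩ ?_
    have e : r⁻¹ • (-c + f (x₀ + r • ξ)) - A ξ = r⁻¹ • (f (x₀ + r • ξ) - c - r • A ξ) := by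
      rw [smul_sub, inv_smul_smul₀ hr.ne', neg_add_eq_sub]
    rw [dist_eq_norm, e, norm_smul, Real.norm_of_nonneg (inv_nonneg.2 hr.le),
      inv_mul_le_iff₀ hr, mul_comm]
    exact h ξ hξ
  refine (measure_mono h2).trans ?_
  rw [measure_preimage_add, Measure.addHaar_smul, Module.finrank_fin_fun,
    abs_of_nonneg (pow_nonneg hr.le 3), ← Measure.addHaar_image_continuousLinearMap]
  exact mul_le_mul_right hl.le _

end P073.An
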