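import Vale.Agent.P073Y.An.WLip

/-!
# Affine changes of the variables for weak derivatives
-/

open Set Metric Topology Filter MeasureTheory
open scoped ENNReal NNReal ContDiff

namespace P073.An

open Vale.Agent.P073.HB

namespace Wk

theorem aff_eq (μ : E3 ≃ᴬ[ℝ] E3) (x : E3) :
    μ x = μ.toContinuousAffineMap.contLinear x + μ 0 := by
  have := μ.toContinuousAffineMap.map_vadd 0 x
  simpa using this

theorem lin_eq (μ : E3 ≃ᴬ[ℝ] E3) (x : E3) :
    μ.toContinuousAffineMap.contLinear x = μ.toAffineEquiv.linear x := rfl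

theorem map_aff (μ : E3 ≃ᴬ[ℝ] E3) :
    ∃ c : ℝ≥0, Measure.map μ volume = c • (volume : Measure E3) := by
  have hdet : LinearMap.det (μ.toAffineEquiv.linear : E3 →ₗ[ℝ] E3) ≠ 0 :=
    (LinearEquiv.isUnit_det' μ.toAffineEquiv.linear).ne_zero
  have h1 := Measure.map_linearMap_addHaar_eq_smul_addHaar (volume : Measure E3) hdet
  have h2 : (μ : E3 → E3) =
      (fun y => y + μ 0) ∘ (μ.toAffineEquiv.linear : E3 →ₗ[ℝ] E3) := funext fun x => aff_eq μ x
  refine ⟨Real.toNNReal |(LinearMap.det (μ.toAffineEquiv.linear : E3 →ₗ[ℝ] E3))⁻¹|, ?_⟩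
  rw [h2, ← Measure.map_map (measurable_add_const _)
    (LinearMap.continuous_of_finiteDimensional _).measurable, h1, Measure.map_smul,
    map_add_right_eq_self]
  rfl

theorem hasF (μ : E3 ≃ᴬ[ℝ] E3) (x : E3) :
    HasFDerivAt μ μ.toContinuousAffineMap.contLinear x :=
  μ.toContinuousAffineMap.hasFDerivAt

variable {V : Type} [NormedAddCommGroup V] [NormedSpace ℝ V]

theorem loc_comp (μ : E3 ≃ᴬ[ℝ] E3) {Ω : Set E3} {u : E3 → V}
    (hu : LocallyIntegrableOn u Ω volume) :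
    LocallyIntegrableOn (fun ξ => u (μ ξ)) (μ ⁻¹' Ω) volume := by
  obtain ⟨c, hc⟩ := map_aff μ
  intro ξ hξ
  obtain ⟨s, hs, hi⟩ := hu (μ ξ) hξ
  refine ⟨μ ⁻¹' s, μ.continuous.continuousWithinAt.preimage_mem_nhdsWithin'' hs rfl |>
    fun h => ?_, ?_⟩
  · exact h
  · have hemb : MeasurableEmbedding μ := μ.toHomeomorph.measurableEmbedding
    have h1 : IntegrableOn u s (Measure.map μ volume) := by
      rw [hc]
      unfold IntegrableOn
      rw [Measure.restrict_smul]
      exact Integrable.smul_measure_nnreal hi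
    exact hemb.integrableOn_map_iff.1 h1

theorem int_comp (μ : E3 ≃ᴬ[ℝ] E3) : ∃ c : ℝ≥0, ∀ u : E3 → E3,
    ∫ ξ, u (μ ξ) = c • ∫ x, u x := by
  obtain ⟨c, hc⟩ := map_aff μ
  refine ⟨c, fun u => ?_⟩
  have hemb : MeasurableEmbedding μ := μ.toHomeomorph.measurableEmbedding
  rw [← hemb.integral_map, hc, integral_smul_nnreal_measure]

theorem int_fderiv_zero {φ : E3 → ℝ} (hφ : ContDiff ℝ ∞ φ) (hc : HasCompactSupport φ)
    (v b : E3) : ∫ x, fderiv ℝ φ x v • b = 0 := by
  have h := (wlip (Ω := univ) (h := fun _ => b) isOpen_univ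
    (LipschitzWith.const b).locallyLipschitz.locallyLipschitzOn).2 φ hφ hc (subset_univ _) v
  simpa using h

end Wk

open Wk in
theorem waff : WAFF := by
  intro Ω f F μ ν hΩ hf hF hw
  set M := μ.toContinuousAffineMap.contLinear with hM
  set N := ν.toContinuousAffineMap.contLinear with hN
  have hFc := loc_comp μ hF
  have hfc := loc_comp μ (hf.locallyIntegrableOn hΩ.measurableSet)
  refine ⟨fun ξ hξ => ?_, fun φ hφ hc hs v => ?_⟩
  · obtain ⟨s, hs, hi⟩ := hFc ξ hξ
    let T : M3 →L[ℝ] M3 := (ContinuousLinearMap.compL ℝ E3 E3 E3 N).comp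
      ((ContinuousLinearMap.compL ℝ E3 E3 E3).flip M)
    exact ⟨s, hs, T.integrable_comp hi⟩
  · obtain ⟨c, hcc⟩ := int_comp μ
    have hψ : ContDiff ℝ ∞ fun x => φ (μ.symm x) :=
      hφ.comp μ.symm.toContinuousAffineMap.contDiff
    have hψc : HasCompactSupport fun x => φ (μ.symm x) := hc.comp_homeomorph μ.symm.toHomeomorph
    have hψs : tsupport (fun x => φ (μ.symm x)) ⊆ Ω := by
      have e : tsupport (fun x => φ (μ.symm x)) = μ.symm ⁻¹' tsupport φ :=
        tsupport_comp_eq_preimage φ μ.symm.toHomeomorph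
      rw [e]
      intro x hx
      simpa using hs hx
    have h := hw _ hψ hψc hψs (M v)
    rw [set_eq _ hψs, set_eq _ ((tsupport_fderiv_apply_subset ℝ _).trans hψs)] at h
    have hs' : tsupport (fun x => fderiv ℝ φ x v) ⊆ μ ⁻¹' Ω :=
      (tsupport_fderiv_apply_subset ℝ v).trans hs
    have hd : ∀ ξ, fderiv ℝ (fun x => φ (μ.symm x)) (μ ξ) (M v) = fderiv ℝ φ ξ v := by
      intro ξ
      have h1 := ((hψ.differentiable (by simp) (μ ξ)).hasFDerivAt.comp ξ (hasF μ ξ)).fderiv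
      have h2 : (fun x => φ (μ.symm x)) ∘ μ = φ := funext fun x => by simp
      rw [h2] at h1
      rw [h1]
      rfl
    have a1 := hcc fun x => φ (μ.symm x) • F x (M v)
    have a2 := hcc fun x => fderiv ℝ (fun x => φ (μ.symm x)) x (M v) • f x
    simp only [ContinuousAffineEquiv.symm_apply_apply, hd] at a1 a2
    have key : ∫ ξ, φ ξ • F (μ ξ) (M v) = - ∫ ξ, fderiv ℝ φ ξ v • f (μ ξ) := by
      rw [a1, a2, h, smul_neg]
    have i1 := int_smul hφ.continuous hc hs (loc_apply hFc (M v))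
    have i2 := int_smul (cont_fderiv hφ v) (hc.fderiv_apply (𝕜 := ℝ) v) hs' hfc
    have i3 : Integrable (fun ξ => fderiv ℝ φ ξ v • ν 0) volume :=
      int_smul (Ω := univ) (cont_fderiv hφ v) (hc.fderiv_apply (𝕜 := ℝ) v) (subset_univ _)
        (continuous_const.locallyIntegrable.locallyIntegrableOn _)
    rw [set_eq _ hs, set_eq _ hs']
    have b1 : ∫ ξ, φ ξ • ((N.comp (F (μ ξ))).comp M) v = N (∫ ξ, φ ξ • F (μ ξ) (M v)) := by
      rw [← N.integral_comp_comm i1]
      simp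
    have b2 : ∫ ξ, fderiv ℝ φ ξ v • ν (f (μ ξ)) = N (∫ ξ, fderiv ℝ φ ξ v • f (μ ξ)) := by
      have e : ∀ ξ, fderiv ℝ φ ξ v • ν (f (μ ξ)) =
          N (fderiv ℝ φ ξ v • f (μ ξ)) + fderiv ℝ φ ξ v • ν 0 := fun ξ => by
        rw [aff_eq ν (f (μ ξ)), smul_add, map_smul]
      simp only [e]
      rw [integral_add (N.integrable_comp i2) i3, int_fderiv_zero hφ hc, add_zero,
        N.integral_comp_comm i2]
    rw [b1, b2, key, map_neg]

end P073.An
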