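import Vale.Agent.P073Y.An.UCW

/-!
# Examples of strictly convex integrands
-/

open Set Metric

namespace P073.An

open Vale.Agent.P073.HB

variable {V V' : Type} [NormedAddCommGroup V] [NormedSpace ℝ V] [NormedAddCommGroup V']
  [NormedSpace ℝ V'] {p : ℝ}

theorem scw_norm [StrictConvexSpace ℝ V] (hp : 1 < p) : SCW p fun A : V => ‖A‖ ^ p := by
  have hp0 : 0 < p := by linarith
  refine ⟨continuous_norm.rpow_const fun _ => Or.inr hp0.le, norm_rpow_smul p,
    fun A hA => Real.rpow_pos_of_pos (norm_pos_iff.2 hA) p, convex_univ, ?_⟩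
  intro x _ y _ hxy a b ha hb hab
  rcases eq_or_ne ‖x‖ ‖y‖ with e | e
  · have h1 := norm_combo_lt_of_ne le_rfl e.ge hxy ha hb hab
    have h2 := Real.rpow_lt_rpow (norm_nonneg _) h1 hp0
    simp only [smul_eq_mul]
    rw [← e, ← add_mul, hab, one_mul]
    exact h2
  · have h1 : ‖a • x + b • y‖ ≤ a * ‖x‖ + b * ‖y‖ := by
      refine (norm_add_le _ _).trans ?_
      rw [norm_smul, norm_smul, Real.norm_of_nonneg ha.le, Real.norm_of_nonneg hb.le]
    exact (Real.rpow_le_rpow (norm_nonneg _) h1 hp0.le).trans_lt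
      ((strictConvexOn_rpow hp).2 (norm_nonneg x) (norm_nonneg y) e ha hb hab)

theorem scw_sum {ι : Type} [Fintype ι] {w : V' → ℝ} (hp : 0 < p) (hw : SCW p w)
    (L : ι → V →ₗ[ℝ] V') (hc : ∀ j, Continuous (L j)) (hL : ∀ A, (∀ j, L j A = 0) → A = 0) :
    SCW p fun A => ∑ j, w (L j A) := by
  have ex : ∀ A, A ≠ 0 → ∃ j, L j A ≠ 0 := fun A hA => by
    by_contra h
    push Not at h
    exact hA (hL A h)
  refine ⟨continuous_finsetSum _ fun j _ => hw.cont.comp (hc j), fun t A ht => ?_,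
    fun A hA => ?_, convex_univ, fun x _ y _ hxy a b ha hb hab => ?_⟩
  · simp only [map_smul, hw.hom _ _ ht, Finset.mul_sum]
  · obtain ⟨j, hj⟩ := ex A hA
    exact Finset.sum_pos' (fun i _ => hw.nonneg hp _) ⟨j, Finset.mem_univ j, hw.pos _ hj⟩
  · obtain ⟨j, hj⟩ := ex _ (sub_ne_zero.2 hxy)
    rw [map_sub, sub_ne_zero] at hj
    simp only [map_add, map_smul, Finset.smul_sum, ← Finset.sum_add_distrib]
    exact Finset.sum_lt_sum
      (fun i _ => hw.cvx.convexOn.2 (mem_univ _) (mem_univ _) ha.le hb.le hab)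
      ⟨j, Finset.mem_univ j, hw.cvx.2 (mem_univ _) (mem_univ _) hj ha hb hab⟩

theorem apply_eq (A : M3) (v : E3) (i : Fin 3) : A v i = ∑ k, v k * A (Pi.single k 1) i := by
  conv_lhs => rw [pi_eq_sum_univ' v]
  simp [map_sum, map_smul]

theorem m3_ext (A : M3) (h : ∀ j, A (Pi.single j 1) = 0) : A = 0 := by
  ext1 v
  ext i
  simp [apply_eq A v i, h]

theorem scw_col {w : E3 → ℝ} (hp : 0 < p) (hw : SCW p w) :
    SCW p fun A : M3 => ∑ j, w (A (Pi.single j 1)) :=
  scw_sum hp hw (fun j => (ContinuousLinearMap.apply ℝ E3 (Pi.single j 1 : E3)).toLinearMap)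
    (fun j => (ContinuousLinearMap.apply ℝ E3 (Pi.single j 1 : E3)).continuous) m3_ext

/-- the entries of a matrix -/
noncomputable def ent : M3 →ₗ[ℝ] EuclideanSpace ℝ (Fin 3 × Fin 3) where
  toFun A := WithLp.toLp 2 fun q => A (Pi.single q.1 1) q.2
  map_add' _ _ := rfl
  map_smul' _ _ := rfl

theorem wfro_eq (p : ℝ) (A : M3) : Wfro p A = ‖ent A‖ ^ p := by
  rw [EuclideanSpace.norm_eq, Real.sqrt_eq_rpow, ← Real.rpow_mul (by positivity), Wfro,
    Fintype.sum_prod_type]
  congr 1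
  · simp only [Real.norm_eq_abs, sq_abs]
    rfl
  · ring

theorem wfro_le {A B : M3} {K : ℝ} (hp : 0 < p) (hK : 0 ≤ K)
    (h : ∑ j, ∑ i, B (Pi.single j 1) i ^ 2 ≤ K ^ 2 * ∑ j, ∑ i, A (Pi.single j 1) i ^ 2) :
    Wfro p B ≤ K ^ p * Wfro p A := by
  refine (Real.rpow_le_rpow (by positivity) h (by positivity)).trans_eq ?_
  rw [Real.mul_rpow (by positivity) (by positivity), ← Real.rpow_natCast, ← Real.rpow_mul hK, Wfro]
  congr 2
  push_cast
  ring

theorem wex : WEX := by
  intro p hp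
  have hp0 : 0 < p := by linarith
  refine ⟨?_, ?_, scw_col hp0, fun A B K hK h => ?_, fun A B K hK h => ⟨?_, ?_⟩⟩
  · have := scw_sum (V := E3) hp0 (scw_norm (V := ℝ) hp) (fun i : Fin 3 => LinearMap.proj i)
      (fun i => continuous_apply i) fun v hv => funext hv
    exact scw_col hp0 this
  · have := scw_sum (ι := Unit) hp0 (scw_norm hp) (fun _ => ent)
      (fun _ => ent.continuous_of_finiteDimensional) fun A hA => m3_ext A fun j => funext fun i =>
        congrArg (fun x : EuclideanSpace ℝ (Fin 3 × Fin 3) => x (j, i)) (hA ())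
    convert this using 2 with A
    simp [wfro_eq]
  · simp only [Wsum, Finset.mul_sum]
    refine Finset.sum_le_sum fun j _ => Finset.sum_le_sum fun i _ => ?_
    rw [← Real.mul_rpow hK (abs_nonneg _)]
    exact Real.rpow_le_rpow (abs_nonneg _) (h _ i) hp0.le
  · refine wfro_le hp0 hK ?_
    rw [Finset.mul_sum]
    exact Finset.sum_le_sum fun j _ => h _
  · refine wfro_le hp0 hK ?_
    rw [Finset.sum_comm, Finset.sum_comm (f := fun j i => A (Pi.single j 1) i ^ 2), Finset.mul_sum]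
    refine Finset.sum_le_sum fun i _ => ?_
    set c : E3 := fun j => (A.comp B) (Pi.single j 1) i with hc
    have e1 : ∑ j, c j ^ 2 = ∑ k, B c k * A (Pi.single k 1) i := by
      rw [← apply_eq, ← ContinuousLinearMap.comp_apply, apply_eq]
      exact Finset.sum_congr rfl fun j _ => sq _
    have e2 := Finset.sum_mul_sq_le_sq_mul_sq Finset.univ (fun k => B c k)
      fun k => A (Pi.single k 1) i
    have e3 := mul_le_mul_of_nonneg_right (h c)
      (show 0 ≤ ∑ k, A (Pi.single k 1) i ^ 2 by positivity)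
    rw [← e1] at e2
    change ∑ j, c j ^ 2 ≤ _
    have s0 : 0 ≤ ∑ j, c j ^ 2 := by positivity
    rcases s0.eq_or_lt with h0 | h0
    · rw [← h0]; positivity
    · refine le_of_mul_le_mul_left ?_ h0
      nlinarith

end P073.An
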