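import Vale.Agent.P073Y.An.Sk

/-!
# Locally Lipschitz maps are weakly differentiable
-/

open Set Metric Topology Filter MeasureTheory
open scoped ENNReal NNReal ContDiff

namespace P073.An

open Vale.Agent.P073.HB

namespace Wk

variable {V : Type} [NormedAddCommGroup V] [NormedSpace ℝ V]

/-- test functions against locally integrable maps -/
theorem int_smul {Ω : Set E3} {g : E3 → ℝ} {u : E3 → V} (hg : Continuous g)
    (hc : HasCompactSupport g) (hs : tsupport g ⊆ Ω) (hu : LocallyIntegrableOn u Ω volume) :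
    Integrable (fun x => g x • u x) volume := by
  have h1 : IntegrableOn u (tsupport g) volume := hu.integrableOn_compact_subset hs hc
  obtain ⟨C, hC⟩ := hg.bounded_above_of_compact_support hc
  have h2 : IntegrableOn (fun x => g x • u x) (tsupport g) volume :=
    Integrable.bdd_smul h1 C hg.aestronglyMeasurable (ae_of_all _ hC)
  refine h2.integrable_of_forall_notMem_eq_zero fun x hx => ?_
  rw [image_eq_zero_of_notMem_tsupport hx, zero_smul]

theorem set_eq {Ω : Set E3} {g : E3 → ℝ} (u : E3 → V) (hs : tsupport g ⊆ Ω) :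
    ∫ x in Ω, g x • u x = ∫ x, g x • u x :=
  setIntegral_eq_integral_of_forall_compl_eq_zero fun x hx => by
    rw [image_eq_zero_of_notMem_tsupport (fun h => hx (hs h)), zero_smul]

theorem cont_fderiv {φ : E3 → ℝ} (hφ : ContDiff ℝ ∞ φ) (v : E3) :
    Continuous fun x => fderiv ℝ φ x v :=
  (hφ.continuous_fderiv (by simp)).clm_apply continuous_const

theorem loc_apply {Ω : Set E3} {F : E3 → M3} (hF : LocallyIntegrableOn F Ω volume) (v : E3) :
    LocallyIntegrableOn (fun y => F y v) Ω volume := by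
  intro x hx
  obtain ⟨s, hs, hi⟩ := hF x hx
  exact ⟨s, hs, hi.apply_continuousLinearMap v⟩

theorem loc_fderiv {Ω : Set E3} {h : E3 → E3} (hΩ : IsOpen Ω) (hh : LocallyLipschitzOn Ω h) :
    LocallyIntegrableOn (fderiv ℝ h) Ω volume := by
  intro x hx
  obtain ⟨K, t, ht, hK⟩ := hh hx
  rw [hΩ.nhdsWithin_eq hx] at ht
  refine ⟨interior t ∩ ball x 1, mem_nhdsWithin_of_mem_nhds
    (inter_mem (interior_mem_nhds.2 ht) (ball_mem_nhds x one_pos)), ?_⟩
  refine Measure.integrableOn_of_bounded (M := K)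
    ((measure_mono inter_subset_right).trans_lt measure_ball_lt_top).ne
    (measurable_fderiv ℝ h).aestronglyMeasurable ?_
  refine (ae_restrict_mem (isOpen_interior.inter isOpen_ball).measurableSet).mono fun y hy => ?_
  exact norm_fderiv_le_of_lipschitzOn ℝ (mem_interior_iff_mem_nhds.1 hy.1) hK

end Wk

open Wk in
theorem wlip : WLIP := by
  intro Ω h hΩ hh
  have hloc := loc_fderiv hΩ hh
  refine ⟨hloc, fun φ hφ hc hs v => ?_⟩
  obtain ⟨K, hK, hKi, hKΩ⟩ := exists_compact_between hc hΩ hs
  obtain ⟨L, hL⟩ := (hh.mono hKΩ).exists_lipschitzOnWith_of_compact hK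
  obtain ⟨g, hg, he⟩ := hL.extend_pi
  obtain ⟨D, hD⟩ := ContDiff.lipschitzWith_of_hasCompactSupport hc hφ (by simp)
  have hs' : tsupport (fun x => fderiv ℝ φ x v) ⊆ tsupport φ := tsupport_fderiv_apply_subset ℝ v
  have i1 := int_smul hφ.continuous hc hs (loc_apply hloc v)
  have i2 := int_smul (cont_fderiv hφ v) (hc.fderiv_apply (𝕜 := ℝ) v) (hs'.trans hs)
    (hh.continuousOn.locallyIntegrableOn hΩ.measurableSet)
  rw [set_eq _ hs, set_eq _ (hs'.trans hs)]
  ext i
  have e1 := (ContinuousLinearMap.proj i : E3 →L[ℝ] ℝ).integral_comp_comm i1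
  have e2 := (ContinuousLinearMap.proj i : E3 →L[ℝ] ℝ).integral_comp_comm i2
  simp only [ContinuousLinearMap.proj_apply] at e1 e2
  rw [Pi.neg_apply, ← e1, ← e2]
  have hgi : LipschitzWith L (fun x => g x i) :=
    LipschitzWith.of_dist_le_mul fun x y => (dist_le_pi_dist _ _ i).trans (hg.dist_le_mul x y)
  have key := LipschitzWith.integral_lineDeriv_mul_eq (μ := volume) hgi hD hc v
  have l1 : ∫ x, (φ x • fderiv ℝ h x v) i = ∫ x, lineDeriv ℝ (fun x => g x i) x v * φ x := by
    refine integral_congr_ae ((hg.ae_differentiableAt (μ := volume)).mono fun x hx => ?_)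
    by_cases hxs : x ∈ tsupport φ
    · have hev : h =ᶠ[𝓝 x] g :=
        Filter.mem_of_superset (mem_interior_iff_mem_nhds.1 (hKi hxs)) fun y hy => he hy
      have hd : HasFDerivAt (fun x => g x i)
          ((ContinuousLinearMap.proj i : E3 →L[ℝ] ℝ).comp (fderiv ℝ g x)) x :=
        (ContinuousLinearMap.proj i : E3 →L[ℝ] ℝ).hasFDerivAt.comp x hx.hasFDerivAt
      simp only [(hd.hasLineDerivAt v).lineDeriv, hev.fderiv_eq]
      simp [mul_comm]
    · simp [image_eq_zero_of_notMem_tsupport hxs]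
  have l2 : ∫ x, lineDeriv ℝ φ x (-v) * g x i = - ∫ x, (fderiv ℝ φ x v • h x) i := by
    rw [← integral_neg]
    refine integral_congr_ae (ae_of_all _ fun x => ?_)
    simp only [(hφ.differentiable (by simp) x).lineDeriv_eq_fderiv, map_neg]
    by_cases hxs : x ∈ tsupport φ
    · rw [← he (interior_subset (hKi hxs))]
      simp
    · have h0 : fderiv ℝ φ x v = 0 :=
        image_eq_zero_of_notMem_tsupport (f := fun x => fderiv ℝ φ x v) fun h => hxs (hs' h)
      simp [h0]
  rw [l1, key, l2]

end P073.An
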