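import Vale.Agent.P073Y.An.WLip

/-!
# Uniform closeness and bounded energy give weak closeness of the derivatives
-/

open Set Metric Topology Filter MeasureTheory
open scoped ENNReal NNReal ContDiff Manifold

namespace P073.An

open Vale.Agent.P073.HB

namespace Wk

theorem le_split {a T p : ℝ} (ha : 0 ≤ a) (hT : 0 < T) (hp : 1 < p) :
    a ≤ T + T ^ (1 - p) * a ^ p := by
  rcases le_or_gt a T with h | h
  · have : 0 ≤ T ^ (1 - p) * a ^ p := by positivity
    linarith
  · have ha0 : 0 < a := hT.trans h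
    have h1 : a ^ (1 - p) ≤ T ^ (1 - p) :=
      Real.rpow_le_rpow_of_nonpos hT h.le (by linarith)
    have h2 : a = a ^ (1 - p) * a ^ p := by
      rw [← Real.rpow_add ha0]; simp
    have h3 : a ^ (1 - p) * a ^ p ≤ T ^ (1 - p) * a ^ p :=
      mul_le_mul_of_nonneg_right h1 (by positivity)
    linarith

/-- the integral of the norm over a small set -/
theorem small {μ : Measure E3} {F : E3 → M3} {p T : ℝ} {M : ℝ≥0∞} (hp : 1 < p) (hT : 0 < T)
    (hM : ∫⁻ x, ‖F x‖ₑ ^ p ∂μ ≤ M) (A : Set E3) :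
    ∫⁻ x in A, ‖F x‖ₑ ∂μ ≤ ENNReal.ofReal T * μ A + ENNReal.ofReal (T ^ (1 - p)) * M := by
  have h1 : ∀ x, ‖F x‖ₑ ≤ ENNReal.ofReal T + ENNReal.ofReal (T ^ (1 - p)) * ‖F x‖ₑ ^ p := by
    intro x
    rw [← ofReal_norm, ENNReal.ofReal_rpow_of_nonneg (norm_nonneg _) (by linarith),
      ← ENNReal.ofReal_mul (by positivity), ← ENNReal.ofReal_add hT.le (by positivity)]
    exact ENNReal.ofReal_le_ofReal (le_split (norm_nonneg _) hT hp)
  refine (lintegral_mono h1).trans ?_
  rw [lintegral_add_left measurable_const, lintegral_const_mul' _ _ ENNReal.ofReal_ne_top,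
    setLIntegral_const]
  gcongr
  exact (setLIntegral_le_lintegral _ _).trans hM

theorem integrable_of {μ : Measure E3} [IsFiniteMeasure μ] {F : E3 → M3} {p : ℝ} {M : ℝ≥0∞}
    (hp : 1 < p) (hMt : M ≠ ⊤) (hF : AEStronglyMeasurable F μ)
    (hM : ∫⁻ x, ‖F x‖ₑ ^ p ∂μ ≤ M) : Integrable F μ := by
  refine ⟨hF, ?_⟩
  have h := small hp one_pos hM univ
  rw [Measure.restrict_univ] at h
  exact h.trans_lt (ENNReal.add_lt_top.2 ⟨ENNReal.mul_lt_top ENNReal.ofReal_lt_top
    (measure_lt_top _ _), ENNReal.mul_lt_top ENNReal.ofReal_lt_top hMt.lt_top⟩)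

theorem exists_bump {K U : Set E3} (hK : IsCompact K) (hU : IsOpen U) (h : K ⊆ U) :
    ∃ φ : E3 → ℝ, ContDiff ℝ ∞ φ ∧ HasCompactSupport φ ∧ tsupport φ ⊆ U ∧
      (∀ x ∈ K, φ x = 1) ∧ ∀ x, φ x ∈ Icc (0:ℝ) 1 := by
  obtain ⟨L, hL, hKL, hLU⟩ := exists_compact_between hK hU h
  obtain ⟨φ, h0, h1, h2⟩ := exists_contMDiffMap_zero_one_of_isClosed (n := (⊤ : ℕ∞)) 𝓘(ℝ, E3)
    isOpen_interior.isClosed_compl hK.isClosed (disjoint_compl_left_iff_subset.2 hKL)
  have hs : tsupport φ ⊆ L := by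
    refine closure_minimal (fun x hx => ?_) hL.isClosed
    by_contra hn
    exact hx (h0 fun hi => hn (interior_subset hi))
  exact ⟨φ, φ.contMDiff.contDiff, hL.of_isClosed_subset (isClosed_tsupport _) hs, hs.trans hLU,
    h1, h2⟩

theorem exists_T {p δ m : ℝ} (hp : 1 < p) (hδ : 0 < δ) : ∃ T : ℝ, 0 < T ∧ T ^ (1 - p) * m ≤ δ := by
  have h1 : Tendsto (fun T : ℝ => T ^ (-(p - 1)) * m) atTop (𝓝 (0 * m)) :=
    (tendsto_rpow_neg_atTop (by linarith)).mul_const m
  rw [zero_mul] at h1
  obtain ⟨T, h2, h3⟩ := ((h1.eventually (ge_mem_nhds hδ)).and (eventually_gt_atTop 0)).exists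
  exact ⟨T, h3, by rwa [neg_sub] at h2⟩

end Wk

open Wk in
theorem weak_thm : WEAK := by
  intro Ω S p δ M hΩ hb hS hp hδ hMt
  have hΩm := hΩ.measurableSet
  have hvol : volume Ω ≠ ⊤ := hb.measure_lt_top.ne
  have : IsFiniteMeasure (volume.restrict Ω) := ⟨by simpa using hvol.lt_top⟩
  obtain ⟨T, hT, hTM⟩ := exists_T (m := M.toReal) hp (show 0 < δ / 8 by positivity)
  have hκ : ENNReal.ofReal (δ / (16 * T)) ≠ 0 := by
    simp only [ne_eq, ENNReal.ofReal_eq_zero, not_le]; positivity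
  have hS' : MeasurableSet (S ∩ Ω) := hS.inter hΩm
  have hS't : volume (S ∩ Ω) ≠ ⊤ := ((measure_mono inter_subset_right).trans_lt hvol.lt_top).ne
  obtain ⟨K, hKS, hK, hKm⟩ := hS'.exists_isCompact_sdiff_lt hS't hκ
  obtain ⟨U, hSU, hU, -, hUm⟩ := hS'.exists_isOpen_sdiff_lt hS't hκ
  obtain ⟨φ, hφ, hc, hs, h1, h01⟩ := exists_bump hK (hU.inter hΩ)
    fun x hx => ⟨hSU (hKS hx), (hKS hx).2⟩
  have hsΩ : tsupport φ ⊆ Ω := hs.trans inter_subset_right
  obtain ⟨C, hC⟩ := (hc.fderiv ℝ).exists_bound_of_continuous (hφ.continuous_fderiv (by simp))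
  have hC0 : 0 ≤ C := (norm_nonneg _).trans (hC 0)
  set W : ℝ := (volume Ω).toReal with hW
  have hW0 : 0 ≤ W := ENNReal.toReal_nonneg
  refine ⟨δ / (2 * (C * W + 1)), by positivity, ?_⟩
  intro f h F G hf hh hF hG hFM hGM hwf hwh hd
  have iF := integrable_of hp hMt hF hFM
  have iG := integrable_of hp hMt hG hGM
  have iD : Integrable (fun x => G x - F x) (volume.restrict Ω) := iG.sub iF
  have hφb : ∀ x, ‖φ x‖ ≤ 1 := fun x => by
    rw [Real.norm_of_nonneg (h01 x).1]; exact (h01 x).2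
  have iφ : ∀ {H : E3 → M3}, Integrable H (volume.restrict Ω) →
      Integrable (fun x => φ x • H x) (volume.restrict Ω) := fun hH =>
    Integrable.bdd_smul hH 1 hφ.continuous.aestronglyMeasurable (ae_of_all _ hφb)
  -- the smooth part
  have e1 : ‖∫ x in Ω, φ x • (G x - F x)‖ ≤ δ / 2 := by
    refine ContinuousLinearMap.opNorm_le_bound _ (by positivity) fun v => ?_
    have hs' : tsupport (fun x => fderiv ℝ φ x v) ⊆ Ω :=
      (tsupport_fderiv_apply_subset ℝ v).trans hsΩ
    have j1 := (int_smul (cont_fderiv hφ v) (hc.fderiv_apply (𝕜 := ℝ) v) hs'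
      (hf.locallyIntegrableOn hΩm)).integrableOn (s := Ω)
    have j2 := (int_smul (cont_fderiv hφ v) (hc.fderiv_apply (𝕜 := ℝ) v) hs'
      (hh.locallyIntegrableOn hΩm)).integrableOn (s := Ω)
    have a1 : (∫ x in Ω, φ x • (G x - F x)) v = ∫ x in Ω, fderiv ℝ φ x v • (f x - h x) := by
      rw [ContinuousLinearMap.integral_apply (iφ iD)]
      simp only [smul_sub, ContinuousLinearMap.sub_apply, ContinuousLinearMap.smul_apply]
      have k1 := (iφ iG).apply_continuousLinearMap v
      have k2 := (iφ iF).apply_continuousLinearMap v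
      simp only [ContinuousLinearMap.smul_apply] at k1 k2
      rw [integral_sub k1 k2, integral_sub j1 j2, hwf φ hφ hc hsΩ v, hwh φ hφ hc hsΩ v]
      abel
    rw [a1]
    have a2 := norm_setIntegral_le_of_norm_le_const (μ := volume) (s := Ω)
      (f := fun x => fderiv ℝ φ x v • (f x - h x))
      (C := C * ‖v‖ * (δ / (2 * (C * W + 1)))) hvol.lt_top (fun x hx => by
        rw [norm_smul]
        refine mul_le_mul (((fderiv ℝ φ x).le_opNorm v).trans
          (mul_le_mul_of_nonneg_right (hC x) (norm_nonneg _))) ?_ (norm_nonneg _) (by positivity)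
        rw [← dist_eq_norm, dist_comm]
        exact hd x hx)
    refine a2.trans ?_
    have a3 : C * W * (δ / (2 * (C * W + 1))) ≤ δ / 2 := by
      rw [← mul_div_assoc, div_le_div_iff₀ (by positivity) (by positivity)]
      nlinarith [mul_nonneg hC0 hW0]
    have a4 : volume.real Ω = W := rfl
    rw [a4]
    nlinarith [norm_nonneg v]
  -- the remainder
  have hA : MeasurableSet (U \ K) := hU.measurableSet.diff hK.measurableSet
  have hAm : (volume.restrict Ω) (U \ K) ≤ ENNReal.ofReal (δ / (8 * T)) := by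
    have b1 : U \ K ⊆ (U \ (S ∩ Ω)) ∪ ((S ∩ Ω) \ K) := fun x hx => by
      by_cases hx' : x ∈ S ∩ Ω
      · exact Or.inr ⟨hx', hx.2⟩
      · exact Or.inl ⟨hx.1, hx'⟩
    refine (Measure.restrict_le_self _).trans ((measure_mono b1).trans
      ((measure_union_le _ _).trans ((add_le_add hUm.le hKm.le).trans ?_)))
    rw [← ENNReal.ofReal_add (by positivity) (by positivity)]
    exact ENNReal.ofReal_le_ofReal (le_of_eq (by field_simp; ring))
  have b2 : ∀ {H : E3 → M3}, ∫⁻ x in Ω, ‖H x‖ₑ ^ p ≤ M →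
      ∫⁻ x in U \ K, ‖H x‖ₑ ∂(volume.restrict Ω) ≤ ENNReal.ofReal (δ / 4) := fun hH => by
    refine (small hp hT hH _).trans ?_
    have c1 : ENNReal.ofReal T * (volume.restrict Ω) (U \ K) ≤ ENNReal.ofReal (δ / 8) := by
      refine (mul_le_mul_right hAm _).trans ?_
      rw [← ENNReal.ofReal_mul hT.le]
      exact ENNReal.ofReal_le_ofReal (le_of_eq (by field_simp))
    have c2 : ENNReal.ofReal (T ^ (1 - p)) * M ≤ ENNReal.ofReal (δ / 8) := by
      rw [← ENNReal.ofReal_toReal hMt, ← ENNReal.ofReal_mul (by positivity)]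
      exact ENNReal.ofReal_le_ofReal hTM
    refine (add_le_add c1 c2).trans ?_
    rw [← ENNReal.ofReal_add (by positivity) (by positivity)]
    exact ENNReal.ofReal_le_ofReal (le_of_eq (by ring))
  have e2 : ‖∫ x in Ω, (S.indicator (fun x => G x - F x) x - φ x • (G x - F x))‖ ≤ δ / 2 := by
    rw [← ENNReal.ofReal_le_ofReal_iff (by positivity), ofReal_norm]
    refine (enorm_integral_le_lintegral_enorm _).trans ?_
    have d1 : ∀ᵐ x ∂(volume.restrict Ω), ‖S.indicator (fun x => G x - F x) x - φ x • (G x - F x)‖ₑ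
        ≤ (U \ K).indicator (fun x => ‖G x‖ₑ + ‖F x‖ₑ) x := by
      refine (ae_restrict_mem hΩm).mono fun x hx => ?_
      by_cases hxA : x ∈ U \ K
      · rw [indicator_of_mem hxA]
        refine le_trans ?_ (enorm_sub_le (a := G x) (b := F x))
        rw [← ofReal_norm, ← ofReal_norm]
        refine ENNReal.ofReal_le_ofReal ?_
        by_cases hxS : x ∈ S
        · rw [indicator_of_mem hxS]
          have : G x - F x - φ x • (G x - F x) = (1 - φ x) • (G x - F x) := by
            module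
          rw [this, norm_smul, Real.norm_of_nonneg (by linarith [(h01 x).2])]
          nlinarith [norm_nonneg (G x - F x), (h01 x).1]
        · rw [indicator_of_notMem hxS, zero_sub, norm_neg, norm_smul]
          nlinarith [norm_nonneg (G x - F x), hφb x]
      · rw [indicator_of_notMem hxA]
        by_cases hxK : x ∈ K
        · rw [indicator_of_mem (hKS hxK).1, h1 x hxK, one_smul, sub_self, ← ofReal_norm,
            norm_zero, ENNReal.ofReal_zero]
        · have hxU : x ∉ U := fun h => hxA ⟨h, hxK⟩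
          rw [indicator_of_notMem fun h => hxU (hSU ⟨h, hx⟩),
            image_eq_zero_of_notMem_tsupport fun h => hxU (hs h).1, zero_smul, sub_self, ← ofReal_norm,
            norm_zero, ENNReal.ofReal_zero]
    refine (lintegral_mono_ae d1).trans ?_
    rw [lintegral_indicator hA, lintegral_add_left' (hG.enorm.restrict)]
    refine (add_le_add (b2 hGM) (b2 hFM)).trans ?_
    rw [← ENNReal.ofReal_add (by positivity) (by positivity)]
    exact ENNReal.ofReal_le_ofReal (le_of_eq (by ring))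
  rw [integral_sub (iD.indicator hS) (iφ iD), integral_indicator hS] at e2
  have e3 := norm_sub_norm_le (∫ x in S, (G x - F x) ∂(volume.restrict Ω))
    (∫ x in Ω, φ x • (G x - F x))
  linarith

end P073.An
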