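import Vale.Agent.P073Y.An.UCW
import Vale.Agent.P073Y.An.WEX
import Vale.Agent.P073Y.An.Weak
import Vale.Agent.P073Y.An.WLip
import Vale.Agent.P073Y.An.WAff
import Vale.Agent.P073Y.An.RRA
import Vale.Agent.P073Y.An.RR
import Vale.Agent.P073Y.An.Max
import Vale.Agent.P073Y.An.Dya
import Vale.Agent.P073Y.An.VolA
import Vale.Agent.P073Y.An.Osc
import Vale.Agent.P073Y.An.Vol3
import Vale.Agent.P073Y.An.Mor
import Vale.Agent.P073Y.An.OscM
import Vale.Agent.P073Z.A1b

/-!
# The analytic blocks: all statements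
-/

namespace P073.An

theorem rra : RRA := rra_of ucw

theorem rr : RR := rr_of ucw rra weak_thm wlip aeaff

theorem mor2 : MOR2 := mor2_of dya

theorem oscm : OSCM := oscm_of maxp mor2

theorem osc : OSC := osc_of oscm

theorem vol3 : VOL3 := vol3_of osc mon

end P073.An
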