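import Vale.Agent.P073Z.Sk1

/-!
# Analytic blocks for the exponents at least two: statements
-/

open Set Metric Topology Filter MeasureTheory
open scoped ENNReal NNReal

namespace P073.An

open Vale.Agent.P073.HB

/-- three by three matrices -/
abbrev M3 := E3 →L[ℝ] E3

/-! ### the top statements and the strictly convex integrands -/

/-- approximation by everywhere conical homeomorphisms, sup norm version -/
def PLA0 (p : ℝ) : Prop := ∀ {Ω Λ : Set E3} {f f' : E3 → E3} {F : E3 → M3} {ε : ℝ},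
  IsOpen Ω → IsOpen Λ → IsConnected Ω → IsConnected Λ → Bornology.IsBounded Ω →
  Bornology.IsBounded Λ → 0 < ε → HomeoOn f f' Ω Λ →
  AEStronglyMeasurable F (volume.restrict Ω) → ∫⁻ x in Ω, ‖F x‖ₑ ^ p < ⊤ →
  WeakDeriv volume Ω f F →
  ∃ h h' : E3 → E3, HomeoOn h h' Ω Λ ∧ ConicalOn h Ω ∧ (∀ x ∈ Ω, dist (h x) (f x) ≤ ε) ∧
    ∫⁻ x in Ω, ‖fderiv ℝ h x - F x‖ₑ ^ p ≤ ENNReal.ofReal ε

/-- the same with an upper bound for the energy `W` only -/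
def PLU (p : ℝ) (W : M3 → ℝ) : Prop := ∀ {Ω Λ : Set E3} {f f' : E3 → E3} {F : E3 → M3} {ε : ℝ},
  IsOpen Ω → IsOpen Λ → IsConnected Ω → IsConnected Λ → Bornology.IsBounded Ω →
  Bornology.IsBounded Λ → 0 < ε → HomeoOn f f' Ω Λ →
  AEStronglyMeasurable F (volume.restrict Ω) → ∫⁻ x in Ω, ‖F x‖ₑ ^ p < ⊤ →
  WeakDeriv volume Ω f F →
  ∃ h h' : E3 → E3, HomeoOn h h' Ω Λ ∧ ConicalOn h Ω ∧ (∀ x ∈ Ω, dist (h x) (f x) ≤ ε) ∧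
    ∫⁻ x in Ω, ENNReal.ofReal (W (fderiv ℝ h x)) ≤
      (∫⁻ x in Ω, ENNReal.ofReal (W (F x))) + ENNReal.ofReal ε

/-- a strictly convex positive integrand, homogeneous of degree `p` -/
structure SCW {V : Type} [NormedAddCommGroup V] [NormedSpace ℝ V] (p : ℝ) (W : V → ℝ) :
    Prop where
  cont : Continuous W
  hom : ∀ (t : ℝ) (A : V), 0 ≤ t → W (t • A) = t ^ p * W A
  pos : ∀ A, A ≠ 0 → 0 < W A
  cvx : StrictConvexOn ℝ univ W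

/-- sum of the `p`-th powers of the entries -/
noncomputable def Wsum (p : ℝ) (A : M3) : ℝ := ∑ j, ∑ i, |A (Pi.single j 1) i| ^ p

/-- the `p`-th power of the Frobenius norm -/
noncomputable def Wfro (p : ℝ) (A : M3) : ℝ := (∑ j, ∑ i, A (Pi.single j 1) i ^ 2) ^ (p / 2)

/-- the norm trick -/
def RR : Prop := ∀ {p : ℝ} {W : M3 → ℝ}, 1 < p → SCW p W → PLU p W → PLA0 p

/-- growth, continuity and uniform convexity of the integrands -/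
def UCW : Prop := ∀ {V : Type} [NormedAddCommGroup V] [NormedSpace ℝ V] [FiniteDimensional ℝ V]
  {p : ℝ} {W : V → ℝ}, 1 < p → SCW p W →
  (∀ A, 0 ≤ W A) ∧ (∃ C : ℝ, 0 < C ∧ ∀ A, ‖A‖ ^ p ≤ C * W A ∧ W A ≤ C * ‖A‖ ^ p) ∧
  (∀ θ : ℝ, 0 < θ → ∃ C : ℝ, 0 < C ∧ ∀ A B, W B ≤ (1 + θ) * W A + C * ‖B - A‖ ^ p) ∧
  ∀ θ : ℝ, 0 < θ → ∃ C : ℝ, 0 < C ∧ ∀ A B, ‖B - A‖ ^ p ≤
    θ * (W A + W B) + C * (W A + W B - 2 * W ((1 / 2 : ℝ) • (A + B)))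

/-- the two examples, and sums over the columns -/
def WEX : Prop := ∀ {p : ℝ}, 1 < p → SCW p (Wsum p) ∧ SCW p (Wfro p) ∧
  (∀ {w : E3 → ℝ}, SCW p w → SCW p fun A : M3 => ∑ j, w (A (Pi.single j 1))) ∧
  (∀ (A B : M3) {K : ℝ}, 0 ≤ K → (∀ v i, |B v i| ≤ K * |v i|) →
    Wsum p (B.comp A) ≤ K ^ p * Wsum p A) ∧
  ∀ (A B : M3) {K : ℝ}, 0 ≤ K → (∀ v, ∑ i, B v i ^ 2 ≤ K ^ 2 * ∑ i, v i ^ 2) →
    Wfro p (B.comp A) ≤ K ^ p * Wfro p A ∧ Wfro p (A.comp B) ≤ K ^ p * Wfro p A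

/-- the abstract theorem of Radon and Riesz: finitely many test sets suffice -/
def RRA : Prop := ∀ {α : Type} [MeasurableSpace α] (μ : Measure α) [IsFiniteMeasure μ]
  {V : Type} [NormedAddCommGroup V] [NormedSpace ℝ V] [FiniteDimensional ℝ V]
  {p : ℝ} {W : V → ℝ} {F : α → V} {ε : ℝ}, 1 < p → SCW p W → AEStronglyMeasurable F μ →
  ∫⁻ x, ‖F x‖ₑ ^ p ∂μ < ⊤ → 0 < ε →
  ∃ (𝒮 : Finset (Set α)) (δ : ℝ), 0 < δ ∧ (∀ S ∈ 𝒮, MeasurableSet S) ∧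
    ∀ G : α → V, AEStronglyMeasurable G μ →
      ∫⁻ x, ENNReal.ofReal (W (G x)) ∂μ ≤
        (∫⁻ x, ENNReal.ofReal (W (F x)) ∂μ) + ENNReal.ofReal δ →
      (∀ S ∈ 𝒮, ‖∫ x in S, (G x - F x) ∂μ‖ ≤ δ) →
      ∫⁻ x, ‖G x - F x‖ₑ ^ p ∂μ ≤ ENNReal.ofReal ε

/-- uniform closeness and bounded energy give weak closeness of the derivatives -/
def WEAK : Prop := ∀ {Ω S : Set E3} {p δ : ℝ} {M : ℝ≥0∞}, IsOpen Ω → Bornology.IsBounded Ω →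
  MeasurableSet S → 1 < p → 0 < δ → M ≠ ⊤ → ∃ η : ℝ, 0 < η ∧
  ∀ {f h : E3 → E3} {F G : E3 → M3}, ContinuousOn f Ω → ContinuousOn h Ω →
    AEStronglyMeasurable F (volume.restrict Ω) → AEStronglyMeasurable G (volume.restrict Ω) →
    ∫⁻ x in Ω, ‖F x‖ₑ ^ p ≤ M → ∫⁻ x in Ω, ‖G x‖ₑ ^ p ≤ M →
    WeakDeriv volume Ω f F → WeakDeriv volume Ω h G → (∀ x ∈ Ω, dist (h x) (f x) ≤ η) →
    ‖∫ x in S, (G x - F x) ∂(volume.restrict Ω)‖ ≤ δ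

/-- locally Lipschitz maps have their derivative as weak derivative -/
def WLIP : Prop := ∀ {Ω : Set E3} {h : E3 → E3}, IsOpen Ω → LocallyLipschitzOn Ω h →
  LocallyIntegrableOn (fderiv ℝ h) Ω volume ∧ WeakDeriv volume Ω h (fderiv ℝ h)

/-- affine changes of the variables -/
def WAFF : Prop := ∀ {Ω : Set E3} {f : E3 → E3} {F : E3 → M3} (μ ν : E3 ≃ᴬ[ℝ] E3),
  IsOpen Ω → ContinuousOn f Ω → LocallyIntegrableOn F Ω volume → WeakDeriv volume Ω f F →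
  LocallyIntegrableOn (fun ξ => (ν.toContinuousAffineMap.contLinear.comp (F (μ ξ))).comp
    μ.toContinuousAffineMap.contLinear) (μ ⁻¹' Ω) volume ∧
  WeakDeriv volume (μ ⁻¹' Ω) (fun ξ => ν (f (μ ξ)))
    fun ξ => (ν.toContinuousAffineMap.contLinear.comp (F (μ ξ))).comp
      μ.toContinuousAffineMap.contLinear

/-! ### maximum principle, oscillation, volume -/

/-- `f` is open on `Ω` -/
def OpenOn (f : E3 → E3) (Ω : Set E3) : Prop := ∀ V, IsOpen V → V ⊆ Ω → IsOpen (f '' V)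

/-- continuous open Sobolev maps -/
structure Mon (Ω : Set E3) (f : E3 → E3) (F : E3 → M3) : Prop where
  op : IsOpen Ω
  cont : ContinuousOn f Ω
  opn : OpenOn f Ω
  loc : LocallyIntegrableOn F Ω volume
  weak : WeakDeriv volume Ω f F

def MON : Prop :=
  (∀ {Ω Λ : Set E3} {f f' : E3 → E3}, IsOpen Λ → HomeoOn f f' Ω Λ → OpenOn f Ω) ∧
  (∀ {Ω Λ : Set E3} {f f' : E3 → E3} {F : E3 → M3} {p : ℝ}, IsOpen Ω → IsOpen Λ → 1 ≤ p →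
    HomeoOn f f' Ω Λ → AEStronglyMeasurable F (volume.restrict Ω) →
    ∫⁻ x in Ω, ‖F x‖ₑ ^ p < ⊤ → WeakDeriv volume Ω f F → Mon Ω f F) ∧
  ∀ {Ω U : Set E3} {f : E3 → E3} {F : E3 → M3}, Mon Ω f F → IsOpen U → U ⊆ Ω → Mon U f F

/-- the maximum principle -/
def MAXP : Prop := ∀ {Ω Q : Set E3} {f : E3 → E3}, ContinuousOn f Ω → OpenOn f Ω →
  IsCompact Q → Q ⊆ Ω →
  (∀ U : Set E3, IsPreconnected U → ¬ Bornology.IsBounded U → Disjoint U (f '' frontier Q) →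
    Disjoint U (f '' Q)) ∧
  ∀ C : Set E3, Convex ℝ C → IsClosed C → f '' frontier Q ⊆ C → f '' Q ⊆ C

/-- telescoping along dyadic edges of the unit square -/
def DYA : Prop := ∀ {X : Type} [PseudoMetricSpace X] {g : E2 → X} {c q : ℝ}, 0 ≤ c → 0 ≤ q →
  q < 1 → ContinuousOn g (Icc 0 1) →
  (∀ (k : ℕ) (n : Fin 2 → ℕ) (d : Fin 2), (∀ t, n t < 2 ^ k) →
    dist (g ((fun t => (n t : ℝ) / 2 ^ k) + Pi.single d (1 / 2 ^ k)))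
      (g fun t => (n t : ℝ) / 2 ^ k) ≤ c * q ^ k) →
  ∀ u ∈ Icc (0 : E2) 1, dist (g u) (g 0) ≤ 2 * c / (1 - q)

/-- the planes of the grid with corner `o`, side `L` and `m` steps -/
def planes (o : E3) (L : ℝ) (m : ℕ) : Set E3 :=
  {z | (∀ i, o i ≤ z i ∧ z i ≤ o i + L) ∧ ∃ (i : Fin 3) (j : ℕ), z i = o i + j * (L / m)}

/-- the two dimensional Morrey estimate on the planes of a generic grid (no openness) -/
def MOR2 : Prop := ∀ {p : ℝ}, 2 < p → ∃ C : ℝ, 0 < C ∧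
  ∀ {Ω B T : Set E3} {f : E3 → E3} {F : E3 → M3} (A : M3) {L τ : ℝ} {m : ℕ} {P : E3 → Prop},
  IsOpen Ω → ContinuousOn f Ω → LocallyIntegrableOn F Ω volume → WeakDeriv volume Ω f F →
  MeasurableSet B → volume B ≠ 0 → volume B ≠ ⊤ → MeasurableSet T → T ⊆ Ω → 0 < L → 0 ≤ τ →
  1 ≤ m → (∀ o ∈ B, ∀ z : E3, (∀ i, o i ≤ z i ∧ z i ≤ o i + L) → z ∈ T) →
  ∫⁻ x in T, ‖F x - A‖ₑ ^ p ≤ ENNReal.ofReal τ * volume B → (∀ᵐ o, o ∈ B → P o) →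
  ∃ o ∈ B, P o ∧ ∀ z ∈ planes o L m, ‖f z - f o - A (z - o)‖ ≤ C * L * (m * τ) ^ (1 / p)

/-- oscillation of `f - A` on a cube -/
def OSCM : Prop := ∀ {p θ : ℝ}, 2 < p → 0 < θ → θ ≤ 1 → ∃ C : ℝ, 0 < C ∧
  ∀ {Ω : Set E3} {f : E3 → E3} {F : E3 → M3} (A : M3) {x₀ : E3} {r τ : ℝ} {m : ℕ},
  Mon Ω f F → 0 < r → 0 ≤ τ → 1 ≤ m → closedBall x₀ ((1 + θ) * r) ⊆ Ω →
  ∫⁻ x in closedBall x₀ ((1 + θ) * r), ‖F x - A‖ₑ ^ p ≤ ENNReal.ofReal (τ * r ^ 3) →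
  ∀ x ∈ closedBall x₀ r, ∀ y ∈ closedBall x₀ r,
    ‖f y - f x - A (y - x)‖ ≤ C * r * ((m * τ) ^ (1 / p) + ‖A‖ / m)

/-- the two forms in which it is used -/
def OSC : Prop := ∀ {p θ : ℝ}, 2 < p → 0 < θ → θ ≤ 1 →
  (∃ C : ℝ≥0, ∀ {Ω : Set E3} {f : E3 → E3} {F : E3 → M3} {x₀ : E3} {r : ℝ},
    Mon Ω f F → 0 < r → closedBall x₀ ((1 + θ) * r) ⊆ Ω →
    ∀ x ∈ closedBall x₀ r, ∀ y ∈ closedBall x₀ r, edist (f y) (f x) ^ p ≤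
      C * ENNReal.ofReal (r ^ (p - 3)) * ∫⁻ z in closedBall x₀ ((1 + θ) * r), ‖F z‖ₑ ^ p) ∧
  ∀ b l : ℝ, 0 < l → ∃ τ : ℝ, 0 < τ ∧
    ∀ {Ω : Set E3} {f : E3 → E3} {F : E3 → M3} (A : M3) {x₀ : E3} {r : ℝ},
    Mon Ω f F → 0 < r → ‖A‖ ≤ b → closedBall x₀ ((1 + θ) * r) ⊆ Ω →
    ∫⁻ x in closedBall x₀ ((1 + θ) * r), ‖F x - A‖ₑ ^ p ≤ ENNReal.ofReal (τ * r ^ 3) →
    ∀ x ∈ closedBall x₀ r, ∀ y ∈ closedBall x₀ r, ‖f y - f x - A (y - x)‖ ≤ l * r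

/-- the volume of images is bounded by the cubic energy -/
def VOL3 : Prop := ∃ C : ℝ≥0, ∀ {Ω : Set E3} {f : E3 → E3} {F : E3 → M3}, Mon Ω f F →
  (∀ U, IsOpen U → U ⊆ Ω → volume (f '' U) ≤ C * ∫⁻ x in U, ‖F x‖ₑ ^ (3 : ℝ)) ∧
  (∫⁻ x in Ω, ‖F x‖ₑ ^ (3 : ℝ) < ⊤ → ∀ S, MeasurableSet S → S ⊆ Ω →
    volume (f '' S) ≤ C * ∫⁻ x in S, ‖F x‖ₑ ^ (3 : ℝ))

/-- the volume of the image of a cube under a map which is uniformly close to a linear map -/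
def VOLA : Prop := ∀ (A : M3) {K : Set E3} {ε : ℝ≥0∞}, IsCompact K → 0 < ε → ∃ l : ℝ, 0 < l ∧
  ∀ {f : E3 → E3} (x₀ c : E3) {r : ℝ}, 0 < r →
  (∀ ξ ∈ K, ‖f (x₀ + r • ξ) - c - r • A ξ‖ ≤ l * r) →
  volume (f '' ((fun ξ => x₀ + r • ξ) '' K)) ≤
    ENNReal.ofReal (r ^ 3) * (ENNReal.ofReal |A.det| * volume K + ε)

end P073.An
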