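import Vale.Agent.P073Y.An.All
import Vale.Agent.P073Y.An.TR0

/-!
# An upper bound for the energy suffices
-/

namespace P073.An

theorem ballEvans_of_PLU {p : ℝ} {W : M3 → ℝ} (hp : 1 < p) (hW : SCW p W) (h : PLU p W) :
    Vale.Agent.P073Z.Fin.BallEvans p :=
  ballEvans_of_PLA0 hp.le (rr hp hW h)

end P073.An
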