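import Vale.Agent.P073Y.An.Sk

/-!
# Growth, continuity and uniform convexity of the integrands
-/

open Set Metric

namespace P073.An

/-- comparison of homogeneous functions by compactness of the sphere -/
theorem hom_le {X : Type} [NormedAddCommGroup X] [NormedSpace ℝ X] [FiniteDimensional ℝ X]
    {p : ℝ} {f h : X → ℝ} (hp : 0 < p) (cf : Continuous f) (ch : Continuous h)
    (hf : ∀ (t : ℝ) (x : X), 0 ≤ t → f (t • x) = t ^ p * f x)
    (hh : ∀ (t : ℝ) (x : X), 0 ≤ t → h (t • x) = t ^ p * h x) (h0 : ∀ x, 0 ≤ h x)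
    (h1 : ∀ x, x ≠ 0 → 0 ≤ f x → 0 < h x) : ∃ C : ℝ, 0 < C ∧ ∀ x, f x ≤ C * h x := by
  have := FiniteDimensional.proper_real X
  have hK : IsCompact (sphere (0 : X) 1 ∩ {x | 0 ≤ f x}) :=
    (isCompact_sphere 0 1).inter_right (isClosed_le continuous_const cf)
  obtain ⟨m, hm, hm'⟩ := hK.exists_forall_le' ch.continuousOn (a := 0) fun x hx =>
    h1 x (fun e => by simpa [e] using hx.1) hx.2
  obtain ⟨M, hM⟩ := (isCompact_sphere (0 : X) 1).exists_bound_of_continuousOn cf.continuousOn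
  have hC : 0 < (|M| + 1) / m := by positivity
  refine ⟨(|M| + 1) / m, hC, fun x => ?_⟩
  rcases eq_or_ne x 0 with rfl | hx
  · have := hf 0 0 le_rfl
    rw [smul_zero, Real.zero_rpow hp.ne', zero_mul] at this
    rw [this]
    exact mul_nonneg hC.le (h0 0)
  have hn : 0 < ‖x‖ := norm_pos_iff.2 hx
  obtain ⟨t, y, ht, hy, rfl⟩ : ∃ (t : ℝ) (y : X), 0 < t ∧ y ∈ sphere (0 : X) 1 ∧ x = t • y :=
    ⟨‖x‖, ‖x‖⁻¹ • x, hn, by simp [norm_smul, hn.ne'], by rw [smul_inv_smul₀ hn.ne']⟩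
  rw [hf _ _ ht.le, hh _ _ ht.le, mul_left_comm]
  refine mul_le_mul_of_nonneg_left ?_ (Real.rpow_nonneg ht.le p)
  rcases le_total 0 (f y) with h2 | h2
  · have h3 := mul_le_mul_of_nonneg_left (hm' y ⟨hy, h2⟩) hC.le
    rw [div_mul_cancel₀ _ hm.ne'] at h3
    have h4 := (le_abs_self _).trans (hM y hy)
    linarith [le_abs_self M]
  · exact h2.trans (mul_nonneg hC.le (h0 y))

variable {V : Type} [NormedAddCommGroup V] [NormedSpace ℝ V] {p : ℝ} {W : V → ℝ}

theorem SCW.zero (h : SCW p W) (hp : 0 < p) : W 0 = 0 := by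
  have := h.hom 0 0 le_rfl
  rwa [smul_zero, Real.zero_rpow hp.ne', zero_mul] at this

theorem SCW.nonneg (h : SCW p W) (hp : 0 < p) (A : V) : 0 ≤ W A := by
  rcases eq_or_ne A 0 with rfl | hA
  exacts [(h.zero hp).ge, (h.pos A hA).le]

theorem norm_rpow_smul (p t : ℝ) (A : V) (ht : 0 ≤ t) : ‖t • A‖ ^ p = t ^ p * ‖A‖ ^ p := by
  rw [norm_smul, Real.norm_of_nonneg ht, Real.mul_rpow ht (norm_nonneg A)]

theorem ucw : UCW := by
  intro V _ _ _ p W hp h
  have hp0 : 0 < p := by linarith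
  have h0 := h.nonneg hp0
  have hc := h.cont
  have cn : Continuous fun A : V => ‖A‖ ^ p := continuous_norm.rpow_const fun _ => Or.inr hp0.le
  have cd : Continuous fun x : V × V => ‖x.2 - x.1‖ ^ p := cn.comp (by fun_prop)
  have hd : ∀ (t : ℝ) (x : V × V), 0 ≤ t →
      ‖(t • x).2 - (t • x).1‖ ^ p = t ^ p * ‖x.2 - x.1‖ ^ p := fun t x ht => by
    rw [Prod.smul_fst, Prod.smul_snd, ← smul_sub, norm_rpow_smul p t _ ht]
  have ne : ∀ x : V × V, x ≠ 0 → x.2 = x.1 → 0 < W x.1 := fun x hx e =>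
    h.pos _ fun e' => hx (Prod.ext e' (e.trans e'))
  refine ⟨h0, ?_, fun θ hθ => ?_, fun θ hθ => ?_⟩
  · obtain ⟨C, hC, h1⟩ := hom_le hp0 cn hc (norm_rpow_smul p) h.hom h0 fun x hx _ => h.pos x hx
    obtain ⟨C', hC', h2⟩ := hom_le hp0 hc cn h.hom (norm_rpow_smul p)
      (fun x => by positivity) fun x hx _ => Real.rpow_pos_of_pos (norm_pos_iff.2 hx) p
    exact ⟨max C C', lt_max_of_lt_left hC, fun A =>
      ⟨(h1 A).trans (mul_le_mul_of_nonneg_right (le_max_left _ _) (h0 A)),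
        (h2 A).trans (mul_le_mul_of_nonneg_right (le_max_right _ _) (by positivity))⟩⟩
  · obtain ⟨C, hC, h1⟩ := hom_le (f := fun x : V × V => W x.2 - (1 + θ) * W x.1) hp0
      (by fun_prop) cd (fun t x ht => by
        rw [Prod.smul_fst, Prod.smul_snd, h.hom _ _ ht, h.hom _ _ ht]; ring) hd
      (fun x => by positivity) fun x hx h2 => by
        refine Real.rpow_pos_of_pos (norm_pos_iff.2 (sub_ne_zero.2 fun e => ?_)) p
        have := mul_pos hθ (ne x hx e)
        rw [e] at h2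
        linarith
    exact ⟨C, hC, fun A B => by linarith [h1 (A, B)]⟩
  · have mid : ∀ A B : V, (1 / 2 : ℝ) • (A + B) = (1 / 2 : ℝ) • A + (1 / 2 : ℝ) • B :=
      fun A B => smul_add _ _ _
    have hh : (0 : ℝ) < 1 / 2 := one_half_pos
    obtain ⟨C, hC, h1⟩ := hom_le (f := fun x : V × V => ‖x.2 - x.1‖ ^ p - θ * (W x.1 + W x.2))
      (h := fun x : V × V => W x.1 + W x.2 - 2 * W ((1 / 2 : ℝ) • (x.1 + x.2))) hp0
      (cd.sub (by fun_prop)) (by fun_prop) (fun t x ht => by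
        rw [hd _ _ ht, Prod.smul_fst, Prod.smul_snd, h.hom _ _ ht, h.hom _ _ ht]; ring)
      (fun t x ht => by
        rw [Prod.smul_fst, Prod.smul_snd, ← smul_add, smul_comm, h.hom _ _ ht, h.hom _ _ ht,
          h.hom _ _ ht]; ring)
      (fun x => by
        have := h.cvx.convexOn.2 (mem_univ x.1) (mem_univ x.2) hh.le hh.le (add_halves 1)
        rw [mid]
        simp only [smul_eq_mul] at this
        linarith)
      fun x hx h2 => by
        have h3 : x.1 ≠ x.2 := fun e => by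
          have := mul_pos hθ (ne x hx e.symm)
          rw [← e, sub_self, norm_zero, Real.zero_rpow hp0.ne'] at h2
          linarith
        have := h.cvx.2 (mem_univ x.1) (mem_univ x.2) h3 hh hh (add_halves 1)
        rw [mid]
        simp only [smul_eq_mul] at this
        linarith
    exact ⟨C, hC, fun A B => by linarith [h1 (A, B)]⟩

end P073.An
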